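import Vale.Agent.P300.H334.Gen
import Vale.Agent.P300.H266.SecSpec

/-!
# P300 / PROJ, [F0]: the local datum on one component, node charts (helper334)

`p : E → V` a finite covering, `V = M_{0,5}` in a node chart, `θ : Omo a b → E` one component of `p⁻¹ R`, with
`p (θ x) = (x₀^a, x₁^b)`. For `g0` holomorphic on `Omega = {pw a b x ∈ R}` the function `f0` with
`f0 (θ x) · jac = g0 x` on this component, `0` elsewhere, satisfies all the hypotheses of `SecL`.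
-/

open MeasureTheory Filter Topology Set
open scoped ENNReal NNReal

set_option autoImplicit false

namespace Vale.Agent.P300.H334

open Vale.Agent.P300.H266

/-- The domain of a piece, punctured. -/
def Omo (a b : ℕ) : Set (Fin 2 → ℂ) := {x | pw a b x ∈ R ∧ x 0 ≠ 0 ∧ x 1 ≠ 0}

theorem pw_zero (a b : ℕ) (x : Fin 2 → ℂ) : pw a b x 0 = x 0 ^ a := rfl

theorem pw_one (a b : ℕ) (x : Fin 2 → ℂ) : pw a b x 1 = x 1 ^ b := rfl

theorem differentiable_pw (a b : ℕ) : Differentiable ℂ (pw a b) := by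
  rw [differentiable_pi]
  intro i
  fin_cases i
  · show Differentiable ℂ fun x : Fin 2 → ℂ => x 0 ^ a
    fun_prop
  · show Differentiable ℂ fun x : Fin 2 → ℂ => x 1 ^ b
    fun_prop

theorem continuous_pw (a b : ℕ) : Continuous (pw a b) := (differentiable_pw a b).continuous

theorem det_fderiv_pw (a b : ℕ) (x : Fin 2 → ℂ) :
    (fderiv ℂ (pw a b) x).det = (a * x 0 ^ (a - 1)) * (b * x 1 ^ (b - 1)) := by
  have h0 : ∀ v, fderiv ℂ (pw a b) x v 0 = a * x 0 ^ (a - 1) * v 0 := by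
    intro v
    have h1 : HasFDerivAt (fun x : Fin 2 → ℂ => x 0 ^ a)
        ((a * x 0 ^ (a - 1)) • ContinuousLinearMap.proj (R := ℂ) (φ := fun _ : Fin 2 => ℂ) 0) x :=
      (hasFDerivAt_apply (𝕜 := ℂ) (0 : Fin 2) x).pow a |>.congr_fderiv (by simp)
    have h2 : HasFDerivAt (fun x => pw a b x 0)
        ((ContinuousLinearMap.proj (R := ℂ) (φ := fun _ : Fin 2 => ℂ) 0).comp (fderiv ℂ (pw a b) x)) x :=
      hasFDerivAt_pi'.1 ((differentiable_pw a b) x).hasFDerivAt 0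
    have h3 := h1.unique h2
    have h4 := congrArg (fun L => L v) h3
    simpa using h4.symm
  have h1 : ∀ v, fderiv ℂ (pw a b) x v 1 = b * x 1 ^ (b - 1) * v 1 := by
    intro v
    have h1 : HasFDerivAt (fun x : Fin 2 → ℂ => x 1 ^ b)
        ((b * x 1 ^ (b - 1)) • ContinuousLinearMap.proj (R := ℂ) (φ := fun _ : Fin 2 => ℂ) 1) x :=
      (hasFDerivAt_apply (𝕜 := ℂ) (1 : Fin 2) x).pow b |>.congr_fderiv (by simp)
    have h2 : HasFDerivAt (fun x => pw a b x 1)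
        ((ContinuousLinearMap.proj (R := ℂ) (φ := fun _ : Fin 2 => ℂ) 1).comp (fderiv ℂ (pw a b) x)) x :=
      hasFDerivAt_pi'.1 ((differentiable_pw a b) x).hasFDerivAt 1
    have h3 := h1.unique h2
    have h4 := congrArg (fun L => L v) h3
    simpa using h4.symm
  rw [ContinuousLinearMap.det, ← LinearMap.det_toMatrix', Matrix.det_fin_two]
  simp only [LinearMap.toMatrix'_apply, ContinuousLinearMap.coe_coe, h0, h1]
  simp

theorem isOpen_Omg (a b : ℕ) : IsOpen {x | pw a b x ∈ R} := isOpen_R.preimage (continuous_pw a b)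

theorem isOpen_Omo (a b : ℕ) : IsOpen (Omo a b) :=
  (isOpen_Omg a b).inter ((isOpen_compl_singleton.preimage (continuous_apply 0)).inter
    (isOpen_compl_singleton.preimage (continuous_apply 1)))

theorem vz_continuous {n : ℕ} (w : Fin n → ℂ) : Continuous (vz w) := by
  unfold vz
  fun_prop

theorem norm_coord_le {n : ℕ} {w z : Fin n → ℂ} {r : ℝ} (h : vz w z ≤ r) (j : Fin n) : ‖z j‖ ≤ ‖w j‖ + (1 + r) := by
  have h1 : ‖z j - w j‖ ^ 2 ≤ r :=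
    (Finset.single_le_sum (f := fun j => ‖z j - w j‖ ^ 2) (fun _ _ => by positivity) (Finset.mem_univ j)).trans h
  have h2 : ‖z j‖ ≤ ‖w j‖ + ‖z j - w j‖ := by
    have := norm_add_le (w j) (z j - w j)
    simpa using this
  nlinarith [norm_nonneg (z j - w j), sq_nonneg (‖z j - w j‖ - 1)]

theorem le_one_add_pow {t : ℝ} (ht : 0 ≤ t) {a : ℕ} (ha : 0 < a) : t ≤ 1 + t ^ a := by
  rcases le_total t 1 with h | h
  · have : 0 ≤ t ^ a := by positivity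
    linarith
  · have := le_self_pow₀ h ha.ne'
    linarith

/-- compactness of the closed pieces -/
theorem isCompact_pw {a b : ℕ} (ha : 0 < a) (hb : 0 < b) (w : Fin 2 → ℂ) (r : ℝ) :
    IsCompact {x | vz w (pw a b x) ≤ r} := by
  refine Metric.isCompact_of_isClosed_isBounded
    (isClosed_le ((vz_continuous w).comp (continuous_pw a b)) continuous_const) ?_
  rw [isBounded_iff_forall_norm_le]
  refine ⟨1 + (‖w 0‖ + (1 + r)) + (1 + (‖w 1‖ + (1 + r))), fun x hx => ?_⟩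
  have h0 := norm_coord_le hx 0
  have h1 := norm_coord_le hx 1
  rw [pw_zero, norm_pow] at h0
  rw [pw_one, norm_pow] at h1
  have h2 := le_one_add_pow (norm_nonneg (x 0)) ha
  have h3 := le_one_add_pow (norm_nonneg (x 1)) hb
  have hr : 0 ≤ r := le_trans (Finset.sum_nonneg fun _ _ => by positivity) hx
  rw [pi_norm_le_iff_of_nonneg (by positivity)]
  intro i
  have e0 := norm_nonneg (w 0)
  have e1 := norm_nonneg (w 1)
  fin_cases i
  · simp only [Fin.zero_eta]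
    linarith
  · simp only [Fin.mk_one]
    linarith

/-- A finite covering is a local homeomorphism. -/
theorem isLocalHomeomorph {n N : ℕ} {E : Type} [TopologicalSpace E] [T2Space E] {p : E → Fin n → ℂ}
    {V : Set (Fin n → ℂ)} (hp : IsFinCov p V N) : IsLocalHomeomorph p := by
  refine IsLocalHomeomorph.mk p fun e => ?_
  obtain ⟨W, s, hW, hz, -, hs, hps, hinj, hcov⟩ := hp.loc (p e) (hp.mem e)
  obtain ⟨i, hi⟩ := hcov e hz
  -- the sheets
  set A : Fin N → Set E := fun i => {e | p e ∈ W ∧ s i (p e) = e} with hA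
  have hAcl : ∀ i, IsOpen {e | p e ∈ W ∧ s i (p e) ≠ e} := by
    intro i
    have h1 : ContinuousOn (fun e => (s i (p e), e)) (p ⁻¹' W) :=
      ((hs i).comp hp.cont.continuousOn (fun _ h => h)).prodMk continuousOn_id
    have h2 := h1.isOpen_inter_preimage (hW.preimage hp.cont) (isClosed_diagonal (X := E)).isOpen_compl
    have h3 : {e | p e ∈ W ∧ s i (p e) ≠ e} = p ⁻¹' W ∩ (fun e => (s i (p e), e)) ⁻¹' (diagonal E)ᶜ := by
      ext y
      simp [mem_diagonal_iff]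
    rw [h3]
    exact h2
  have hAo : ∀ i, IsOpen (A i) := by
    intro i
    have h1 : A i = p ⁻¹' W ∩ ⋂ j ∈ {j : Fin N | j ≠ i}, {e | p e ∈ W ∧ s j (p e) ≠ e} := by
      ext y
      simp only [hA, mem_ofPred_eq, mem_inter_iff, mem_preimage, mem_iInter]
      constructor
      · rintro ⟨h1, h2⟩
        refine ⟨h1, fun j hj => ⟨h1, fun h3 => hj ?_⟩⟩
        exact hinj (p y) h1 (by simp only; rw [h2, h3])
      · rintro ⟨h1, h2⟩
        refine ⟨h1, ?_⟩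
        obtain ⟨j, hj⟩ := hcov y h1
        by_cases hji : j = i
        · rw [← hji]; exact hj
        · exact absurd hj (h2 j hji).2
    rw [h1]
    exact (hW.preimage hp.cont).inter ((Set.toFinite _).isOpen_biInter fun j _ => hAcl j)
  refine ⟨{ toFun := p, invFun := s i, source := A i, target := W, map_source' := ?_, map_target' := ?_,
            left_inv' := ?_, right_inv' := ?_, open_source := hAo i, open_target := hW,
            continuousOn_toFun := hp.cont.continuousOn, continuousOn_invFun := hs i }, ⟨hz, hi⟩, fun _ _ => rfl⟩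
  · exact fun y hy => hy.1
  · intro z hz
    refine ⟨by rw [hps i z hz]; exact hz, ?_⟩
    rw [hps i z hz]
  · exact fun y hy => hy.2
  · exact fun z hz => hps i z hz

section node

variable {E : Type} [TopologicalSpace E] {p : E → Fin 2 → ℂ} {a b : ℕ} {θ : (Fin 2 → ℂ) → E}

omit [TopologicalSpace E] in
theorem fderiv_comp_eq (hpθ : ∀ x ∈ Omo a b, p (θ x) = pw a b x) {x : Fin 2 → ℂ} (hx : x ∈ Omo a b) :
    fderiv ℂ (p ∘ θ) x = fderiv ℂ (pw a b) x := by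
  refine Filter.EventuallyEq.fderiv_eq ?_
  filter_upwards [(isOpen_Omo a b).mem_nhds hx] with y hy using hpθ y hy

theorem isChart (hθ : ContinuousOn θ (Omo a b)) (hinj : InjOn θ (Omo a b))
    (hpθ : ∀ x ∈ Omo a b, p (θ x) = pw a b x) : IsChart p θ (Omo a b) where
  isOpen := isOpen_Omo a b
  cont := hθ
  inj := hinj
  holo := (differentiable_pw a b).differentiableOn.congr hpθ

omit [TopologicalSpace E] in
theorem jac_eq (hpθ : ∀ x ∈ Omo a b, p (θ x) = pw a b x) {x : Fin 2 → ℂ} (hx : x ∈ Omo a b) :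
    jac p θ x = (a * x 0 ^ (a - 1)) * (b * x 1 ^ (b - 1)) := by
  rw [jac, ← det_fderiv_pw]
  exact congrArg _ (fderiv_comp_eq hpθ hx)

omit [TopologicalSpace E] in
theorem jac_ne (ha : 0 < a) (hb : 0 < b) (hpθ : ∀ x ∈ Omo a b, p (θ x) = pw a b x) {x : Fin 2 → ℂ}
    (hx : x ∈ Omo a b) : jac p θ x ≠ 0 := by
  rw [jac_eq hpθ hx]
  have h1 : (a : ℂ) ≠ 0 := by exact_mod_cast ha.ne'
  have h2 : (b : ℂ) ≠ 0 := by exact_mod_cast hb.ne'
  exact mul_ne_zero (mul_ne_zero h1 (pow_ne_zero _ hx.2.1)) (mul_ne_zero h2 (pow_ne_zero _ hx.2.2))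

/-- one factor of the inverse of the Jacobian -/
theorem norm_inv_factor {a : ℕ} (ha : 0 < a) {t : ℂ} (ht : t ≠ 0) :
    ‖(a * t ^ (a - 1) : ℂ)⁻¹‖ ≤ 1 + ‖(t ^ a)⁻¹‖ := by
  have ha1 : (1 : ℝ) ≤ a := by exact_mod_cast ha
  have ht0 : 0 < ‖t‖ := norm_pos_iff.2 ht
  rw [norm_inv, norm_inv, norm_mul, Complex.norm_natCast, norm_pow, norm_pow, mul_inv]
  have h1 : (a : ℝ)⁻¹ ≤ 1 := inv_le_one_of_one_le₀ ha1
  have h2 : (‖t‖ ^ (a - 1))⁻¹ ≤ 1 + (‖t‖ ^ a)⁻¹ := by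
    rcases le_total 1 ‖t‖ with h | h
    · have h3 : (‖t‖ ^ (a - 1))⁻¹ ≤ 1 := inv_le_one_of_one_le₀ (one_le_pow₀ h)
      have h4 : 0 ≤ (‖t‖ ^ a)⁻¹ := by positivity
      linarith
    · have h3 : (‖t‖ ^ (a - 1))⁻¹ ≤ (‖t‖ ^ a)⁻¹ := by
        have h5 : ‖t‖ ^ a ≤ ‖t‖ ^ (a - 1) := pow_le_pow_of_le_one ht0.le h (Nat.sub_le a 1)
        exact inv_anti₀ (by positivity) h5
      linarith
  calc (a : ℝ)⁻¹ * (‖t‖ ^ (a - 1))⁻¹ ≤ 1 * (‖t‖ ^ (a - 1))⁻¹ := by gcongr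
    _ ≤ _ := by rw [one_mul]; exact h2

/-- **[F0]** the local datum on one component, in the form consumed by `SecL`. -/
theorem exists_f0 [T2Space E] {N : ℕ} (hp : IsFinCov p V N) (ha : 0 < a) (hb : 0 < b)
    (hθ : ContinuousOn θ (Omo a b)) (hinj : InjOn θ (Omo a b)) (hpθ : ∀ x ∈ Omo a b, p (θ x) = pw a b x)
    (hcl : ∀ e, p e ∈ R → e ∈ closure (θ '' Omo a b) → e ∈ θ '' Omo a b)
    {g0 : (Fin 2 → ℂ) → ℂ} (hg0 : DifferentiableOn ℂ g0 {x | pw a b x ∈ R})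
    {w : Fin 2 → ℂ} {r : ℝ} (hr : 0 < r) (hball : ∀ z, vz w z < 4 * r → z ∈ R)
    {ρ : (Fin 2 → ℂ) → ℝ} {C : ℝ} {k : ℕ} (hρ0 : ∀ z ∈ V, 0 ≤ ρ z)
    (hρ : ∀ z ∈ V, ‖(z 0)⁻¹‖ ≤ C * (1 + ρ z) ^ k ∧ ‖(z 1)⁻¹‖ ≤ C * (1 + ρ z) ^ k) :
    ∃ f : E → ℂ, (∀ x ∈ Omo a b, f (θ x) * jac p θ x = g0 x) ∧ (∀ e, e ∉ θ '' Omo a b → f e = 0) ∧
      HoloBE p V w (4 * r) f ∧
      (∃ (c : ℝ) (k : ℕ), ∀ e, vz w (p e) ≤ r → ‖f e‖ ≤ c * (1 + ρ (p e)) ^ k) ∧
      (∫⁻ x in Omo a b ∩ {x | vz w (p (θ x)) ≤ r},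
        ENNReal.ofReal (‖f (θ x)‖ ^ 2 * ‖jac p θ x‖ ^ 2) < ⊤) := by
  have hloc := isLocalHomeomorph hp
  have hZ : DifferentiableOn ℂ (p ∘ θ) (Omo a b) := (isChart hθ hinj hpθ).holo
  have hdet : ∀ x ∈ Omo a b, (fderiv ℂ (p ∘ θ) x).det ≠ 0 := fun x hx => jac_ne ha hb hpθ hx
  have hsub : Omo a b ⊆ {x | pw a b x ∈ R} := fun x hx => hx.1
  have hval : ∀ x ∈ Omo a b, loc p θ (Omo a b) g0 (θ x) * jac p θ x = g0 x := by
    intro x hx
    rw [loc_apply hinj hx]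
    show g0 x * (jac p θ x)⁻¹ * jac p θ x = g0 x
    rw [mul_assoc, inv_mul_cancel₀ (jac_ne ha hb hpθ hx), mul_one]
  -- the bound of `g0`
  have hK := isCompact_pw ha hb w r
  have hKs : {x | vz w (pw a b x) ≤ r} ⊆ {x | pw a b x ∈ R} := fun x hx =>
    hball _ (lt_of_le_of_lt (show vz w (pw a b x) ≤ r from hx) (by linarith))
  obtain ⟨c, hc⟩ := hK.exists_bound_of_continuousOn (hg0.continuousOn.mono hKs)
  refine ⟨loc p θ (Omo a b) g0, hval, fun e he => loc_out he, ?_, ?_, ?_⟩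
  · intro W s hs hsW
    refine loc_holo hloc (isOpen_Omo a b) hθ hinj hZ hdet (hg0.mono hsub) hs.isOpen hs.cont hs.sec
      fun z hz => hcl (s z) ?_
    rw [hs.sec z hz]
    exact hball z (hsW z hz)
  · refine ⟨|c| * (1 + |C|) ^ 2, 2 * k, fun e he => ?_⟩
    have hρe := hρ0 (p e) (hp.mem e)
    by_cases hm : e ∈ θ '' Omo a b
    · obtain ⟨x, hx, rfl⟩ := hm
      obtain ⟨h0, h1⟩ := hρ _ (hp.mem (θ x))
      have hpx := hpθ x hx
      rw [hpx] at h0 h1 he hρe ⊢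
      rw [pw_zero] at h0
      rw [pw_one] at h1
      have hone : (1 : ℝ) ≤ (1 + ρ (pw a b x)) ^ k := one_le_pow₀ (by linarith)
      have hf0 : ‖(a * x 0 ^ (a - 1) : ℂ)⁻¹‖ ≤ (1 + |C|) * (1 + ρ (pw a b x)) ^ k := by
        refine (norm_inv_factor ha hx.2.1).trans ?_
        have h2 : C * (1 + ρ (pw a b x)) ^ k ≤ |C| * (1 + ρ (pw a b x)) ^ k :=
          mul_le_mul_of_nonneg_right (le_abs_self C) (by positivity)
        linarith
      have hf1 : ‖(b * x 1 ^ (b - 1) : ℂ)⁻¹‖ ≤ (1 + |C|) * (1 + ρ (pw a b x)) ^ k := by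
        refine (norm_inv_factor hb hx.2.2).trans ?_
        have h2 : C * (1 + ρ (pw a b x)) ^ k ≤ |C| * (1 + ρ (pw a b x)) ^ k :=
          mul_le_mul_of_nonneg_right (le_abs_self C) (by positivity)
        linarith
      rw [loc_apply hinj hx]
      have hj : (fderiv ℂ (p ∘ θ) x).det = (a * x 0 ^ (a - 1)) * (b * x 1 ^ (b - 1)) := jac_eq hpθ hx
      rw [hj, mul_inv, norm_mul, norm_mul]
      have hg : ‖g0 x‖ ≤ |c| := (hc x he).trans (le_abs_self c)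
      calc ‖g0 x‖ * (‖(a * x 0 ^ (a - 1) : ℂ)⁻¹‖ * ‖(b * x 1 ^ (b - 1) : ℂ)⁻¹‖)
          ≤ |c| * (((1 + |C|) * (1 + ρ (pw a b x)) ^ k) * ((1 + |C|) * (1 + ρ (pw a b x)) ^ k)) := by
            gcongr
        _ = |c| * (1 + |C|) ^ 2 * (1 + ρ (pw a b x)) ^ (2 * k) := by ring
    · rw [loc_out hm, norm_zero]
      positivity
  · have hKm : MeasurableSet (Omo a b ∩ {x | vz w (p (θ x)) ≤ r}) := by
      have h1 : Omo a b ∩ {x | vz w (p (θ x)) ≤ r} = Omo a b ∩ {x | vz w (pw a b x) ≤ r} := by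
        ext x
        simp only [mem_inter_iff, mem_ofPred_eq]
        constructor
        · rintro ⟨h1, h2⟩
          exact ⟨h1, by rw [← hpθ x h1]; exact h2⟩
        · rintro ⟨h1, h2⟩
          exact ⟨h1, by rw [hpθ x h1]; exact h2⟩
      rw [h1]
      exact (isOpen_Omo a b).measurableSet.inter hK.isClosed.measurableSet
    have h2 : ∫⁻ x in Omo a b ∩ {x | vz w (p (θ x)) ≤ r},
        ENNReal.ofReal (‖loc p θ (Omo a b) g0 (θ x)‖ ^ 2 * ‖jac p θ x‖ ^ 2) ≤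
        ∫⁻ _ in Omo a b ∩ {x | vz w (p (θ x)) ≤ r}, ENNReal.ofReal (c ^ 2) := by
      refine setLIntegral_mono' hKm fun x hx => ?_
      refine ENNReal.ofReal_le_ofReal ?_
      rw [← mul_pow, ← norm_mul, hval x hx.1]
      refine pow_le_pow_left₀ (norm_nonneg _) (hc x ?_) 2
      have := hx.2
      rwa [mem_ofPred_eq, hpθ x hx.1] at this
    refine h2.trans_lt ?_
    rw [setLIntegral_const]
    refine ENNReal.mul_lt_top ENNReal.ofReal_lt_top ?_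
    refine (measure_mono ?_).trans_lt hK.measure_lt_top
    rintro x ⟨h1, h3⟩
    rwa [mem_ofPred_eq, hpθ x h1] at h3

/-- the closedness hypothesis of `exists_f0`: the other components are open -/
theorem closed_of_pieces [T2Space E] {N : ℕ} (hp : IsFinCov p V N) {ι : Type*} {a b : ι → ℕ}
    {θ : ι → (Fin 2 → ℂ) → E} (ha : ∀ s, 0 < a s) (hb : ∀ s, 0 < b s)
    (hθ : ∀ s, ContinuousOn (θ s) (Omo (a s) (b s))) (hinj : ∀ s, InjOn (θ s) (Omo (a s) (b s)))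
    (hpθ : ∀ s, ∀ x ∈ Omo (a s) (b s), p (θ s x) = pw (a s) (b s) x)
    (hdis : ∀ s s', θ s '' Omo (a s) (b s) = θ s' '' Omo (a s') (b s') ∨
      Disjoint (θ s '' Omo (a s) (b s)) (θ s' '' Omo (a s') (b s')))
    (hcov : ∀ e, p e ∈ R → ∃ s, e ∈ θ s '' Omo (a s) (b s)) (s : ι) (e : E) (he : p e ∈ R)
    (hc : e ∈ closure (θ s '' Omo (a s) (b s))) : e ∈ θ s '' Omo (a s) (b s) := by
  obtain ⟨s', hs'⟩ := hcov e he
  rcases hdis s s' with h | h
  · rw [h]; exact hs'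
  · exfalso
    have hO : IsOpen (θ s' '' Omo (a s') (b s')) :=
      isOpen_image (isLocalHomeomorph hp) (isOpen_Omo _ _) (hθ s') (isChart (hθ s') (hinj s') (hpθ s')).holo
        fun x hx => jac_ne (ha s') (hb s') (hpθ s') hx
    obtain ⟨y, hy1, hy2⟩ := mem_closure_iff.1 hc _ hO hs'
    exact Set.disjoint_left.1 h hy2 hy1

end node

/-- The growth hypothesis of `exists_f0` for the explicit exhaustion function. -/
theorem rho_growth {ρ : (Fin 2 → ℂ) → ℝ}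
    (hρ : ∀ z, ρ z = ∑ i, ‖z i‖ ^ 2 + ‖(z 0 * z 1 * (1 - z 0) * (1 - z 1) * (1 - z 0 * z 1))⁻¹‖ ^ 2) :
    (∀ z ∈ V, 0 ≤ ρ z) ∧
      ∀ z ∈ V, ‖(z 0)⁻¹‖ ≤ 8 * (1 + ρ z) ^ 6 ∧ ‖(z 1)⁻¹‖ ≤ 8 * (1 + ρ z) ^ 6 := by
  refine ⟨fun z _ => by rw [hρ]; positivity, fun z hz => ?_⟩
  obtain ⟨h0, h1, h2, h3, h4⟩ := hz
  set t := ρ z with ht
  set H : ℂ := z 0 * z 1 * (1 - z 0) * (1 - z 1) * (1 - z 0 * z 1) with hH
  have hsum : ‖z 0‖ ^ 2 + ‖z 1‖ ^ 2 + ‖H⁻¹‖ ^ 2 = t := by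
    rw [ht, hρ, Fin.sum_univ_two]
  have key : ∀ x y u : ℝ, 0 ≤ x → x ^ 2 + y ^ 2 + u ^ 2 = t → x ≤ 1 + t := by
    intro x y u hx h
    nlinarith [sq_nonneg (x - 1), sq_nonneg y, sq_nonneg u]
  have e0 : ‖z 0‖ ≤ 1 + t := key _ _ _ (norm_nonneg _) hsum
  have e1 : ‖z 1‖ ≤ 1 + t := key _ ‖z 0‖ ‖H⁻¹‖ (norm_nonneg _) (by rw [← hsum]; ring)
  have e2 : ‖H⁻¹‖ ≤ 1 + t := key _ ‖z 0‖ ‖z 1‖ (norm_nonneg _) (by rw [← hsum]; ring)
  have ht0 : 0 ≤ t := by rw [← hsum]; positivity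
  have e3 : ‖1 - z 0‖ ≤ 2 * (1 + t) := by
    refine (norm_sub_le _ _).trans ?_
    rw [norm_one]
    linarith
  have e4 : ‖1 - z 1‖ ≤ 2 * (1 + t) := by
    refine (norm_sub_le _ _).trans ?_
    rw [norm_one]
    linarith
  have e5 : ‖1 - z 0 * z 1‖ ≤ 2 * (1 + t) ^ 2 := by
    refine (norm_sub_le _ _).trans ?_
    rw [norm_one, norm_mul]
    have : ‖z 0‖ * ‖z 1‖ ≤ (1 + t) * (1 + t) := by gcongr
    nlinarith
  have g3 : (1 : ℂ) - z 0 ≠ 0 := sub_ne_zero.2 (Ne.symm h2)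
  have g4 : (1 : ℂ) - z 1 ≠ 0 := sub_ne_zero.2 (Ne.symm h3)
  have g5 : (1 : ℂ) - z 0 * z 1 ≠ 0 := sub_ne_zero.2 (Ne.symm h4)
  constructor
  · have e6 : (z 0)⁻¹ = H⁻¹ * (z 1 * (1 - z 0) * (1 - z 1) * (1 - z 0 * z 1)) := by
      have hne : z 1 * (1 - z 0) * (1 - z 1) * (1 - z 0 * z 1) ≠ 0 :=
        mul_ne_zero (mul_ne_zero (mul_ne_zero h1 g3) g4) g5
      have : H = z 0 * (z 1 * (1 - z 0) * (1 - z 1) * (1 - z 0 * z 1)) := by rw [hH]; ring
      rw [this, mul_inv, mul_assoc, inv_mul_cancel₀ hne, mul_one]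
    rw [e6]
    simp only [norm_mul]
    calc ‖H⁻¹‖ * (‖z 1‖ * ‖1 - z 0‖ * ‖1 - z 1‖ * ‖1 - z 0 * z 1‖)
        ≤ (1 + t) * ((1 + t) * (2 * (1 + t)) * (2 * (1 + t)) * (2 * (1 + t) ^ 2)) := by gcongr
      _ = 8 * (1 + t) ^ 6 := by ring
  · have e6 : (z 1)⁻¹ = H⁻¹ * (z 0 * (1 - z 0) * (1 - z 1) * (1 - z 0 * z 1)) := by
      have hne : z 0 * (1 - z 0) * (1 - z 1) * (1 - z 0 * z 1) ≠ 0 :=
        mul_ne_zero (mul_ne_zero (mul_ne_zero h0 g3) g4) g5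
      have : H = z 1 * (z 0 * (1 - z 0) * (1 - z 1) * (1 - z 0 * z 1)) := by rw [hH]; ring
      rw [this, mul_inv, mul_assoc, inv_mul_cancel₀ hne, mul_one]
    rw [e6]
    simp only [norm_mul]
    calc ‖H⁻¹‖ * (‖z 0‖ * ‖1 - z 0‖ * ‖1 - z 1‖ * ‖1 - z 0 * z 1‖)
        ≤ (1 + t) * ((1 + t) * (2 * (1 + t)) * (2 * (1 + t)) * (2 * (1 + t) ^ 2)) := by gcongr
      _ = 8 * (1 + t) ^ 6 := by ring

end Vale.Agent.P300.H334

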