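import Vale.Agent.P300.H86.Spec
import Vale.Agent.P300.H918.Gen

/-!
# P300 [CHOW], projective end, part 1 (helper334): the affine part of a projective atlas
-/

open Filter Set MeasureTheory
open scoped Topology ContDiff ENNReal

set_option autoImplicit false

namespace Vale.Agent.P300.H334

open Vale.Agent.P300.H86

section poly

open MvPolynomial

/-- the derivative of a polynomial function -/
noncomputable def dP {m : ℕ} (P : MvPolynomial (Fin m) ℂ) (x : Fin m → ℂ) : (Fin m → ℂ) →L[ℂ] ℂ :=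
  ∑ b, eval x (pderiv b P) • ContinuousLinearMap.proj (R := ℂ) (φ := fun _ : Fin m => ℂ) b

theorem dP_apply {m : ℕ} (P : MvPolynomial (Fin m) ℂ) (x v : Fin m → ℂ) :
    dP P x v = ∑ b, eval x (pderiv b P) * v b := by
  simp [dP]

theorem hasFDerivAt_eval {m : ℕ} (P : MvPolynomial (Fin m) ℂ) (x : Fin m → ℂ) :
    HasFDerivAt (fun x => eval x P) (dP P x) x := by
  induction P using MvPolynomial.induction_on with
  | C a =>
    have h1 : (fun x : Fin m → ℂ => eval x (C a : MvPolynomial (Fin m) ℂ)) = fun _ => a := by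
      funext x
      simp
    rw [h1]
    refine (hasFDerivAt_const a x).congr_fderiv ?_
    ext v
    simp [dP_apply]
  | add p q hp hq =>
    have h1 : (fun x : Fin m → ℂ => eval x (p + q)) = fun x => eval x p + eval x q := by
      funext x
      simp
    rw [h1]
    refine (hp.fun_add hq).congr_fderiv ?_
    ext v
    have h2 : (dP p x + dP q x) v = dP p x v + dP q x v := rfl
    rw [h2, dP_apply, dP_apply, dP_apply, ← Finset.sum_add_distrib]
    refine Finset.sum_congr rfl fun b _ => ?_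
    rw [map_add, map_add, add_mul]
  | mul_X p i hp =>
    have h1 : HasFDerivAt (fun x : Fin m → ℂ => x i)
        (ContinuousLinearMap.proj (R := ℂ) (φ := fun _ : Fin m => ℂ) i) x := hasFDerivAt_apply i x
    have h3 : (fun x : Fin m → ℂ => eval x (p * X i)) = fun x => eval x p * x i := by
      funext x
      simp
    rw [h3]
    refine (hp.fun_mul h1).congr_fderiv ?_
    ext v
    have h2 : (eval x p • ContinuousLinearMap.proj (R := ℂ) (φ := fun _ : Fin m => ℂ) i + x i • dP p x) v =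
        eval x p * v i + x i * dP p x v := rfl
    rw [h2, dP_apply, dP_apply, Finset.mul_sum]
    have h4 : ∀ b, eval x (pderiv b (p * X i)) * v b =
        (if b = i then eval x p * v i else 0) + x i * (eval x (pderiv b p) * v b) := by
      intro b
      rw [Derivation.leibniz, pderiv_X, smul_eq_mul, smul_eq_mul, map_add, map_mul, map_mul, eval_X]
      by_cases hb : b = i
      · subst hb
        simp
        ring
      · rw [if_neg hb, Pi.single_apply, if_neg (Ne.symm hb)]
        simp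
        ring
    rw [Finset.sum_congr rfl fun b _ => h4 b, Finset.sum_add_distrib, Finset.sum_ite_eq' Finset.univ i]
    simp

end poly

/-- linear form number `r` of the matrix `M` -/
noncomputable def lin {n : ℕ} (M : Fin 4 → Fin n → ℂ) (r : Fin 4) : (Fin n → ℂ) →L[ℂ] ℂ :=
  ∑ b, M r b • ContinuousLinearMap.proj (R := ℂ) (φ := fun _ : Fin n => ℂ) b

theorem lin_apply {n : ℕ} (M : Fin 4 → Fin n → ℂ) (r : Fin 4) (v : Fin n → ℂ) :
    lin M r v = ∑ b, M r b * v b := by
  simp [lin]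

/-- the linear map of the matrix `M` -/
noncomputable def linM {n : ℕ} (M : Fin 4 → Fin n → ℂ) : (Fin n → ℂ) →L[ℂ] (Fin 4 → ℂ) :=
  ContinuousLinearMap.pi (lin M)

theorem linM_apply {n : ℕ} (M : Fin 4 → Fin n → ℂ) (r : Fin 4) (v : Fin n → ℂ) : linM M v r = lin M r v := rfl

/-- the projection -/
noncomputable def prM {n : ℕ} (M : Fin 4 → Fin n → ℂ) : (Fin n → ℂ) →L[ℂ] W :=
  ContinuousLinearMap.pi ![lin M 1, lin M 2]

theorem prM_zero {n : ℕ} (M : Fin 4 → Fin n → ℂ) (v : Fin n → ℂ) : prM M v 0 = lin M 1 v := rfl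
theorem prM_one {n : ℕ} (M : Fin 4 → Fin n → ℂ) (v : Fin n → ℂ) : prM M v 1 = lin M 2 v := rfl

/-- substitution -/
noncomputable def subst {n : ℕ} (M : Fin 4 → Fin n → ℂ) (G : MvPolynomial (Fin 4) ℂ) : MvPolynomial (Fin n) ℂ :=
  MvPolynomial.aeval (fun r => ∑ b, MvPolynomial.C (M r b) * MvPolynomial.X b) G

theorem eval_subst {n : ℕ} (M : Fin 4 → Fin n → ℂ) (G : MvPolynomial (Fin 4) ℂ) (v : Fin n → ℂ) :
    MvPolynomial.eval v (subst M G) = MvPolynomial.eval (linM M v) G := by
  induction G using MvPolynomial.induction_on with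
  | C a => simp [subst]
  | add p q hp hq =>
    have : subst M (p + q) = subst M p + subst M q := by simp [subst]
    rw [this, map_add, map_add, hp, hq]
  | mul_X p i hp =>
    have : subst M (p * MvPolynomial.X i) = subst M p * ∑ b, MvPolynomial.C (M i b) * MvPolynomial.X b := by
      simp [subst]
    rw [this, map_mul, map_mul, hp, MvPolynomial.eval_X, linM_apply, lin_apply, map_sum]
    congr 1
    refine Finset.sum_congr rfl fun b _ => ?_
    simp

theorem subst_hom {n : ℕ} (M : Fin 4 → Fin n → ℂ) {G : MvPolynomial (Fin 4) ℂ} {N : ℕ} (hG : G.IsHomogeneous N) :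
    (subst M G).IsHomogeneous N := by
  have h := hG.aeval (n := 1) (fun r => ∑ b, MvPolynomial.C (M r b) * MvPolynomial.X (R := ℂ) b) (fun r => by
    refine MvPolynomial.IsHomogeneous.sum _ _ _ fun b _ => ?_
    have := (MvPolynomial.isHomogeneous_C (Fin n) (M r b)).mul (MvPolynomial.isHomogeneous_X ℂ b)
    simpa using this)
  simpa [subst] using h

/-- the chain rule -/
theorem pderiv_subst {n : ℕ} (M : Fin 4 → Fin n → ℂ) (G : MvPolynomial (Fin 4) ℂ) (x κ : Fin n → ℂ) :
    ∑ b, κ b * MvPolynomial.eval x (MvPolynomial.pderiv b (subst M G)) =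
      ∑ r, lin M r κ * MvPolynomial.eval (linM M x) (MvPolynomial.pderiv r G) := by
  have h1 := hasFDerivAt_eval (subst M G) x
  have h2 := (hasFDerivAt_eval G (linM M x)).comp x (linM M).hasFDerivAt
  have h3 : (fun x => MvPolynomial.eval x (subst M G)) = (fun y => MvPolynomial.eval y G) ∘ (linM M) := by
    funext v
    exact eval_subst M G v
  rw [h3] at h1
  have h4 : dP (subst M G) x κ = dP G (linM M x) (linM M κ) := congrArg (fun L => L κ) (h1.unique h2)
  rw [dP_apply, dP_apply] at h4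
  rw [Finset.sum_congr rfl fun b _ => mul_comm (κ b) _, h4]
  exact Finset.sum_congr rfl fun b _ => mul_comm _ _

section aff

variable {n : ℕ} {C : Set (Fin n → ℂ)} (A : ProjAtlas C) (M : Fin 4 → Fin n → ℂ)

/-- the tangent space of the cone -/
noncomputable def TT (i : A.ι) (u : W) : Fin 3 → (Fin n → ℂ) :=
  ![A.F i u, fderiv ℂ (A.F i) u (Pi.single 0 1), fderiv ℂ (A.F i) u (Pi.single 1 1)]

/-- the first `k` linear forms are independent on the span of `T` -/
def InjOnSpan {m : ℕ} (k : ℕ) (M : Fin 4 → Fin n → ℂ) (T : Fin m → (Fin n → ℂ)) : Prop :=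
  ∀ c : Fin m → ℂ, (∀ r : Fin 4, (r : ℕ) < k → lin M r (∑ j, c j • T j) = 0) → c = 0

/-- the matrix `M` is good for the atlas `A` -/
structure GoodM : Prop where
  nz : ∀ v ∈ C, ∃ r : Fin 4, (r : ℕ) < 3 ∧ lin M r v ≠ 0
  dense : ∀ i, ∀ U : Set W, IsOpen U → U ⊆ A.D i → U.Nonempty →
    ∃ u ∈ U, lin M 0 (A.F i u) ≠ 0 ∧ InjOnSpan 3 M (TT A i u)

/-- the affine chart -/
noncomputable def ff (i : A.ι) (u : W) : Fin n → ℂ := (lin M 0 (A.F i u))⁻¹ • A.F i u

variable {A M}

theorem hasFDerivAt_ff {i : A.ι} {u : W} (hu : u ∈ A.D i) (h0 : lin M 0 (A.F i u) ≠ 0) :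
    HasFDerivAt (ff A M i) ((lin M 0 (A.F i u))⁻¹ • fderiv ℂ (A.F i) u +
      (-((lin M 0 (A.F i u)) ^ 2)⁻¹ • ((lin M 0).comp (fderiv ℂ (A.F i) u))).smulRight (A.F i u)) u := by
  have h1 : HasFDerivAt (A.F i) (fderiv ℂ (A.F i) u) u :=
    ((A.diff i u hu).differentiableAt ((A.openD i).mem_nhds hu)).hasFDerivAt
  have h2 : HasFDerivAt (fun x => lin M 0 (A.F i x)) ((lin M 0).comp (fderiv ℂ (A.F i) u)) u :=
    (lin M 0).hasFDerivAt.comp u h1
  have h3 : HasFDerivAt (fun x => (lin M 0 (A.F i x))⁻¹)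
      (-((lin M 0 (A.F i u)) ^ 2)⁻¹ • ((lin M 0).comp (fderiv ℂ (A.F i) u))) u :=
    (hasDerivAt_inv h0).comp_hasFDerivAt u h2
  exact h3.smul h1

theorem fderiv_two (L : W →L[ℂ] (Fin n → ℂ)) (v : W) : L v = v 0 • L (Pi.single 0 1) + v 1 • L (Pi.single 1 1) := by
  have h1 : v = v 0 • (Pi.single 0 1 : W) + v 1 • (Pi.single 1 1 : W) := by
    ext j
    fin_cases j <;> simp
  conv_lhs => rw [h1]
  rw [map_add, map_smul, map_smul]

theorem jac_ne_zero {i : A.ι} {u : W} (hu : u ∈ A.D i) (h0 : lin M 0 (A.F i u) ≠ 0)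
    (hinj : InjOnSpan 3 M (TT A i u)) : Jac (fun x => prM M (ff A M i x)) u ≠ 0 := by
  intro hJ
  have hd := (prM M).hasFDerivAt.comp u (hasFDerivAt_ff hu h0)
  have hJ' : LinearMap.det (fderiv ℂ (fun x => prM M (ff A M i x)) u : W →ₗ[ℂ] W) = 0 := hJ
  have hk := LinearMap.bot_lt_ker_of_det_eq_zero hJ'
  obtain ⟨v, hv, hv0⟩ := (Submodule.ne_bot_iff _).1 (ne_of_gt hk)
  have hv1 : fderiv ℂ (fun x => prM M (ff A M i x)) u v = 0 := hv
  have hfd : fderiv ℂ (fun x => prM M (ff A M i x)) u = _ := hd.fderiv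
  rw [hfd] at hv1
  simp only [ContinuousLinearMap.comp_apply, _root_.add_apply, _root_.smul_apply,
    ContinuousLinearMap.smulRight_apply, smul_eq_mul] at hv1
  set φ := lin M 0 (A.F i u) with hφ
  set X : Fin n → ℂ := φ⁻¹ • fderiv ℂ (A.F i) u v + (-(φ ^ 2)⁻¹ * lin M 0 (fderiv ℂ (A.F i) u v)) • A.F i u with hX
  have hc := hinj ![-(φ ^ 2)⁻¹ * lin M 0 (fderiv ℂ (A.F i) u v), φ⁻¹ * v 0, φ⁻¹ * v 1] (by
    have hsum : ∑ j, (![-(φ ^ 2)⁻¹ * lin M 0 (fderiv ℂ (A.F i) u v), φ⁻¹ * v 0, φ⁻¹ * v 1] : Fin 3 → ℂ) j •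
        TT A i u j = X := by
      rw [Fin.sum_univ_three, hX, fderiv_two (fderiv ℂ (A.F i) u) v]
      simp only [TT, Matrix.cons_val_zero, Matrix.cons_val_one, Matrix.cons_val]
      rw [smul_add, smul_smul, smul_smul]
      abel
    intro r hr
    rw [hsum]
    have h1 : lin M 1 X = 0 := by
      have := congrFun hv1 0
      exact this
    have h2 : lin M 2 X = 0 := by
      have := congrFun hv1 1
      exact this
    have h3 : lin M 0 X = 0 := by
      rw [hX, map_add, map_smul, map_smul, smul_eq_mul, smul_eq_mul, ← hφ]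
      field_simp
      ring
    fin_cases r
    · exact h3
    · exact h1
    · exact h2
    · simp at hr)
  have e1 : φ⁻¹ * v 0 = 0 := congrFun hc 1
  have e2 : φ⁻¹ * v 1 = 0 := congrFun hc 2
  have hφ' : φ⁻¹ ≠ 0 := inv_ne_zero h0
  apply hv0
  ext j
  fin_cases j
  · exact (mul_eq_zero.1 e1).resolve_left hφ'
  · exact (mul_eq_zero.1 e2).resolve_left hφ'

end aff

end Vale.Agent.P300.H334
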