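import Vale.Agent.P300.H334.Chow1

/-!
# P300 [CHOW], projective end, part 2 (helper334): the structure `Aff` of a good matrix
-/

open Filter Set MeasureTheory
open scoped Topology ContDiff ENNReal

set_option autoImplicit false

namespace Vale.Agent.P300.H334

open Vale.Agent.P300.H86

variable {n : ℕ} {C : Set (Fin n → ℂ)} (A : ProjAtlas C) (M : Fin 4 → Fin n → ℂ)

/-- the domain of the affine chart -/
def DD (i : A.ι) : Set W := {u | u ∈ A.D i ∧ lin M 0 (A.F i u) ≠ 0}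

/-- the affine part -/
def ZZ (C : Set (Fin n → ℂ)) (M : Fin 4 → Fin n → ℂ) : Set (Fin n → ℂ) := {v | v ∈ C ∧ lin M 0 v = 1}

theorem isOpen_DD (i : A.ι) : IsOpen (DD A M i) := by
  have h1 : ContinuousOn (fun u => lin M 0 (A.F i u)) (A.D i) :=
    (lin M 0).continuous.comp_continuousOn (A.diff i).continuousOn
  exact h1.isOpen_inter_preimage (A.openD i) isOpen_compl_singleton

include A in
theorem isClosed_ZZ : IsClosed (ZZ C M) := by
  have h1 : ZZ C M = (C ∪ {0}) ∩ {v | lin M 0 v = 1} := by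
    ext v
    simp only [ZZ, mem_ofPred_eq, mem_inter_iff, mem_union, mem_singleton_iff]
    constructor
    · rintro ⟨h1, h2⟩
      exact ⟨Or.inl h1, h2⟩
    · rintro ⟨h1 | h1, h2⟩
      · exact ⟨h1, h2⟩
      · subst h1
        simp at h2
  rw [h1]
  exact A.closed.inter (isClosed_eq (lin M 0).continuous continuous_const)

variable {A M}

theorem ff_mem {i : A.ι} {u : W} (hu : u ∈ DD A M i) : ff A M i u ∈ ZZ C M := by
  refine ⟨A.smul _ (A.mem i u hu.1) _ (inv_ne_zero hu.2), ?_⟩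
  rw [ff, map_smul, smul_eq_mul, inv_mul_cancel₀ hu.2]

theorem ff_eq_of_smul {i : A.ι} {u : W} {v : Fin n → ℂ} {s : ℂ} (hv : lin M 0 v = 1)
    (h : v = s • A.F i u) : lin M 0 (A.F i u) ≠ 0 ∧ ff A M i u = v := by
  have h1 : s * lin M 0 (A.F i u) = 1 := by rw [← hv, h, map_smul, smul_eq_mul]
  have h2 : lin M 0 (A.F i u) ≠ 0 := right_ne_zero_of_mul_eq_one h1
  refine ⟨h2, ?_⟩
  rw [ff, h, eq_inv_of_mul_eq_one_left h1]

theorem ff_openImg {i : A.ι} {u : W} (hu : u ∈ DD A M i) {U : Set W} (hU : U ∈ 𝓝 u) :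
    ff A M i '' (U ∩ DD A M i) ∈ 𝓝[ZZ C M] (ff A M i u) := by
  have h1 := A.openImg i u hu.1 U hU
  set c : ℂ := (lin M 0 (A.F i u))⁻¹ with hc
  have hc0 : c ≠ 0 := inv_ne_zero hu.2
  -- scaling
  have hs : Tendsto (fun v : Fin n → ℂ => c⁻¹ • v) (𝓝[C] (ff A M i u)) (𝓝[C] (A.F i u)) := by
    refine tendsto_nhdsWithin_of_tendsto_nhds_of_eventually_within _ ?_ ?_
    · have h2 : ContinuousAt (fun v : Fin n → ℂ => c⁻¹ • v) (ff A M i u) := by fun_prop
      have h3 : c⁻¹ • ff A M i u = A.F i u := by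
        rw [ff, ← hc, smul_smul, inv_mul_cancel₀ hc0, one_smul]
      have h4 := h2.tendsto
      rw [h3] at h4
      exact h4.mono_left nhdsWithin_le_nhds
    · filter_upwards [self_mem_nhdsWithin] with v hv
      exact A.smul v hv _ (inv_ne_zero hc0)
  have h2 := hs h1
  have h3 : 𝓝[ZZ C M] (ff A M i u) ≤ 𝓝[C] (ff A M i u) := nhdsWithin_mono _ fun v hv => hv.1
  filter_upwards [h3 h2, self_mem_nhdsWithin] with v hv hvZ
  obtain ⟨s, u', hu', hvs⟩ := hv
  have h4 : v = (c * s) • A.F i u' := by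
    rw [mul_smul, ← hvs, smul_smul, mul_inv_cancel₀ hc0, one_smul]
  obtain ⟨h5, h6⟩ := ff_eq_of_smul hvZ.2 h4
  exact ⟨u', ⟨hu'.1, hu'.2, h5⟩, h6⟩

/-- linear growth -/
theorem growth_ZZ (A : ProjAtlas C) (h : ∀ v ∈ C, ∃ r : Fin 4, (r : ℕ) < 3 ∧ lin M r v ≠ 0) :
    ∃ c : ℝ, ∀ v ∈ ZZ C M, ‖v‖ ≤ c * (1 + ‖prM M v‖) := by
  set g : (Fin n → ℂ) → ℝ := fun v => ‖lin M 0 v‖ + ‖lin M 1 v‖ + ‖lin M 2 v‖ with hg
  have hgc : Continuous g := by
    have h0 := (lin M 0).continuous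
    have h1 := (lin M 1).continuous
    have h2 := (lin M 2).continuous
    fun_prop
  set K : Set (Fin n → ℂ) := C ∩ Metric.sphere 0 1 with hK
  have hKc : IsCompact K := by
    have h1 : K = (C ∪ {0}) ∩ Metric.sphere 0 1 := by
      ext v
      simp only [hK, mem_inter_iff, mem_union, mem_singleton_iff, mem_sphere_zero_iff_norm]
      constructor
      · rintro ⟨h1, h2⟩
        exact ⟨Or.inl h1, h2⟩
      · rintro ⟨h1 | h1, h2⟩
        · exact ⟨h1, h2⟩
        · subst h1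
          simp at h2
    rw [h1]
    exact (isCompact_sphere 0 1).inter_left A.closed
  have hpos : ∀ v ∈ K, 0 < g v := by
    intro v hv
    obtain ⟨r, hr, hne⟩ := h v hv.1
    have h1 := norm_pos_iff.2 hne
    simp only [hg]
    fin_cases r
    · have := norm_nonneg (lin M 1 v)
      have := norm_nonneg (lin M 2 v)
      simp only [Fin.zero_eta] at h1
      linarith
    · have := norm_nonneg (lin M 0 v)
      have := norm_nonneg (lin M 2 v)
      simp only [Fin.mk_one] at h1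
      linarith
    · have := norm_nonneg (lin M 0 v)
      have := norm_nonneg (lin M 1 v)
      have h2 : 0 < ‖lin M 2 v‖ := h1
      linarith
    · simp at hr
  obtain ⟨δ, hδ, hδ'⟩ : ∃ δ : ℝ, 0 < δ ∧ ∀ v ∈ K, δ ≤ g v := by
    rcases K.eq_empty_or_nonempty with h0 | h0
    · exact ⟨1, one_pos, fun v hv => by rw [h0] at hv; exact absurd hv (by simp)⟩
    · obtain ⟨v0, hv0, hmin⟩ := hKc.exists_isMinOn h0 hgc.continuousOn
      exact ⟨g v0, hpos v0 hv0, fun v hv => hmin hv⟩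
  refine ⟨δ⁻¹ * 2, fun v hv => ?_⟩
  have hv0 : v ≠ 0 := fun h0 => A.zero (h0 ▸ hv.1)
  have hn : 0 < ‖v‖ := norm_pos_iff.2 hv0
  have hvK : ((‖v‖⁻¹ : ℝ) : ℂ) • v ∈ K := by
    refine ⟨A.smul v hv.1 _ (by exact_mod_cast (inv_pos.2 hn).ne'), ?_⟩
    rw [mem_sphere_zero_iff_norm, norm_smul, Complex.norm_real, Real.norm_of_nonneg (inv_pos.2 hn).le,
      inv_mul_cancel₀ hn.ne']
  have h1 := hδ' _ hvK
  have h2 : g (((‖v‖⁻¹ : ℝ) : ℂ) • v) = ‖v‖⁻¹ * g v := by
    simp only [hg, map_smul, smul_eq_mul, norm_mul, Complex.norm_real, Real.norm_of_nonneg (inv_pos.2 hn).le]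
    ring
  rw [h2, le_inv_mul_iff₀ hn] at h1
  have h3 : g v ≤ 2 * (1 + ‖prM M v‖) := by
    simp only [hg]
    have e1 : ‖lin M 1 v‖ ≤ ‖prM M v‖ := norm_le_pi_norm (prM M v) 0
    have e2 : ‖lin M 2 v‖ ≤ ‖prM M v‖ := norm_le_pi_norm (prM M v) 1
    rw [hv.2, norm_one]
    linarith
  rw [mul_assoc, le_inv_mul_iff₀ hδ]
  linarith

/-- **the affine part of a projective atlas** -/
noncomputable def affOf (A : ProjAtlas C) (M : Fin 4 → Fin n → ℂ) (h : GoodM A M) : Aff n where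
  Z := ZZ C M
  ι := A.ι
  cnt := A.cnt
  D := DD A M
  f := ff A M
  pr := prM M
  closed := isClosed_ZZ A M
  openD := isOpen_DD A M
  diff := fun i u hu => (hasFDerivAt_ff hu.1 hu.2).differentiableAt.differentiableWithinAt
  inj := by
    intro i u hu u' hu' hff
    have h1 : A.F i u' = (lin M 0 (A.F i u') * (lin M 0 (A.F i u))⁻¹) • A.F i u := by
      rw [mul_smul]
      have h2 : (lin M 0 (A.F i u))⁻¹ • A.F i u = (lin M 0 (A.F i u'))⁻¹ • A.F i u' := hff
      rw [h2, smul_smul, mul_inv_cancel₀ hu'.2, one_smul]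
    exact (A.inj i u hu.1 u' hu'.1 _ h1).symm
  mem := fun i u hu => ff_mem hu
  cover := by
    intro v hv
    obtain ⟨i, u, hu, s, hs, hvs⟩ := A.cover v hv.1
    obtain ⟨h1, h2⟩ := ff_eq_of_smul hv.2 hvs
    exact ⟨i, u, ⟨hu, h1⟩, h2⟩
  openImg := fun i u hu U hU => ff_openImg hu hU
  growth := growth_ZZ A h.nz
  dense := by
    intro i U hU hUD hne
    obtain ⟨u, hu, h0, hinj⟩ := h.dense i U hU (fun u hu => (hUD hu).1) hne
    exact ⟨u, hu, jac_ne_zero (hUD hu).1 h0 hinj⟩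

end Vale.Agent.P300.H334
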