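import Vale.Agent.P300.H334.Chow2
import Vale.Agent.P268.Hol

/-!
# P300 [CHOW], projective end, part 3 (helper334): generic matrices
-/

open Filter Set MeasureTheory
open scoped Topology ContDiff ENNReal

set_option autoImplicit false

namespace Vale.Agent.P300.H334

open Vale.Agent.P300.H86 Vale.Agent.P300.H918

variable {n : ℕ} {C : Set (Fin n → ℂ)}

theorem contDiffOn_real {m : ℕ} {f : W → (Fin m → ℂ)} {D : Set W} (hD : IsOpen D)
    (hf : DifferentiableOn ℂ f D) : ContDiffOn ℝ 1 f D :=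
  (P268.contDiffOn_of_differentiableOn hD hf 1).restrict_scalars ℝ

/-- one vector -/
theorem bad_vec {v : Fin n → ℂ} (hv : v ≠ 0) :
    dimH {M : Fin 4 → Fin n → ℂ | lin M 0 v = 0} ≤ ((8 * n - 1 : ℕ) : ℝ≥0∞) := by
  have h := bad_dimH (n := n) (P := Fin 0 → ℝ) 1 (by norm_num) (by simp) (D := univ) isOpen_univ
    (fun _ => v) contDiffOn_const (fun _ _ => hv)
  refine (dimH_mono ?_).trans h
  intro M hM
  refine ⟨0, mem_univ _, fun r hr => ?_⟩
  have hr0 : r = 0 := by
    apply Fin.ext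
    simp at hr ⊢
    omega
  rw [hr0, ← lin_apply]
  exact hM

/-- a linearly independent family -/
theorem bad_span {m k : ℕ} (hk : k ≤ 4) (hm : m < k) {T : Fin (m + 1) → (Fin n → ℂ)}
    (hT : LinearIndependent ℂ T) :
    dimH {M : Fin 4 → Fin n → ℂ | ¬ InjOnSpan k M T} ≤ ((8 * n - 1 : ℕ) : ℝ≥0∞) := by
  classical
  set V : Fin (m + 1) → (Fin m → ℂ) → (Fin n → ℂ) := fun j t => T j + ∑ a, t a • T (j.succAbove a) with hV
  have hVc : ∀ j, ContDiffOn ℝ 1 (V j) univ := by
    intro j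
    rw [contDiffOn_pi]
    intro b
    have h1 : (fun t => V j t b) = fun t : Fin m → ℂ => T j b + ∑ a, t a * T (j.succAbove a) b := by
      funext t
      simp [hV, Finset.sum_apply]
    rw [h1]
    refine ContDiffOn.add contDiffOn_const (ContDiffOn.sum fun a _ => ?_)
    exact ((contDiff_apply ℝ ℂ a).contDiffOn).mul contDiffOn_const
  have hV0 : ∀ j, ∀ t ∈ (univ : Set (Fin m → ℂ)), V j t ≠ 0 := by
    intro j t _ h0
    have h1 := Fintype.linearIndependent_iff.1 hT (j.insertNth (1 : ℂ) t) (by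
      rw [Fin.sum_univ_succAbove _ j]
      simp only [Fin.insertNth_apply_same, Fin.insertNth_apply_succAbove, one_smul]
      exact h0) j
    rw [Fin.insertNth_apply_same] at h1
    exact one_ne_zero h1
  have hbad := fun j => bad_dimH (n := n) (P := Fin m → ℂ) k hk
    (by rw [Module.finrank_pi_fintype]; simp [Complex.finrank_real_complex]; omega) (D := univ) isOpen_univ
    (V j) (hVc j) (hV0 j)
  have hsub : {M : Fin 4 → Fin n → ℂ | ¬ InjOnSpan k M T} ⊆ ⋃ j : Fin (m + 1),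
      {M : Fin 4 → Fin n → ℂ | ∃ u ∈ (univ : Set (Fin m → ℂ)), ∀ r : Fin 4, (r : ℕ) < k →
        ∑ b, M r b * V j u b = 0} := by
    intro M hM
    have hM' : ¬ InjOnSpan k M T := hM
    unfold InjOnSpan at hM'
    push Not at hM'
    obtain ⟨c, hc, hc0⟩ := hM'
    obtain ⟨j, hj⟩ : ∃ j, c j ≠ 0 := by
      by_contra hcon
      push Not at hcon
      exact hc0 (funext hcon)
    refine mem_iUnion.2 ⟨j, fun a => (c j)⁻¹ * c (j.succAbove a), mem_univ _, fun r hr => ?_⟩
    have h1 := hc r hr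
    rw [Fin.sum_univ_succAbove _ j] at h1
    have h2 : V j (fun a => (c j)⁻¹ * c (j.succAbove a)) =
        (c j)⁻¹ • (c j • T j + ∑ a, c (j.succAbove a) • T (j.succAbove a)) := by
      simp only [hV]
      rw [smul_add, smul_smul, inv_mul_cancel₀ hj, one_smul, Finset.smul_sum]
      congr 1
      exact Finset.sum_congr rfl fun a _ => by rw [smul_smul]
    rw [← lin_apply, h2, map_smul, h1, smul_zero]
  refine (dimH_mono hsub).trans ?_
  rw [dimH_iUnion]
  exact iSup_le hbad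

/-- no common zero -/
theorem bad_nz (A : ProjAtlas C) (i : A.ι) :
    dimH {M : Fin 4 → Fin n → ℂ | ∃ u ∈ A.D i, ∀ r : Fin 4, (r : ℕ) < 3 → ∑ b, M r b * A.F i u b = 0} ≤
      ((8 * n - 1 : ℕ) : ℝ≥0∞) :=
  bad_dimH 3 (by norm_num) (by rw [Module.finrank_pi_fintype]; simp [Complex.finrank_real_complex]) (A.openD i)
    (A.F i) (contDiffOn_real (A.openD i) (A.diff i)) fun u hu h0 => A.zero (h0 ▸ A.mem i u hu)

/-- separation of a point from the cone -/
theorem bad_sep (A : ProjAtlas C) (i : A.ι) (x0 : Fin n → ℂ) :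
    dimH {M : Fin 4 → Fin n → ℂ | ∃ q ∈ {q : ℂ × W | q.2 ∈ A.D i ∧ q.1 • A.F i q.2 - x0 ≠ 0},
      ∀ r : Fin 4, (r : ℕ) < 4 → ∑ b, M r b * (q.1 • A.F i q.2 - x0) b = 0} ≤ ((8 * n - 1 : ℕ) : ℝ≥0∞) := by
  have hF : ContDiffOn ℝ 1 (A.F i) (A.D i) := contDiffOn_real (A.openD i) (A.diff i)
  have hO : IsOpen {q : ℂ × W | q.2 ∈ A.D i} := (A.openD i).preimage continuous_snd
  have h1 : ContDiffOn ℝ 1 (fun q : ℂ × W => A.F i q.2) {q : ℂ × W | q.2 ∈ A.D i} :=
    hF.comp contDiffOn_snd fun q hq => hq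
  have h2 : ContDiffOn ℝ 1 (fun q : ℂ × W => q.1 • A.F i q.2 - x0) {q : ℂ × W | q.2 ∈ A.D i} := by
    rw [contDiffOn_pi]
    intro b
    have h3 : ContDiffOn ℝ 1 (fun q : ℂ × W => A.F i q.2 b) {q : ℂ × W | q.2 ∈ A.D i} :=
      (contDiffOn_pi.1 h1) b
    exact (contDiffOn_fst.mul h3).sub contDiffOn_const
  refine bad_dimH (P := ℂ × W) 4 le_rfl ?_ ?_ (fun q => q.1 • A.F i q.2 - x0) (h2.mono fun q hq => hq.1)
    fun q hq => hq.2
  · rw [Module.finrank_prod, Module.finrank_pi_fintype]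
    simp [Complex.finrank_real_complex]
  · exact h2.continuousOn.isOpen_inter_preimage hO isOpen_compl_singleton

/-- the tangent vectors are independent -/
theorem TT_indep (A : ProjAtlas C) (i : A.ι) {u : W} (hu : u ∈ A.D i) : LinearIndependent ℂ (TT A i u) :=
  A.imm i u hu

/-- **generic matrices** -/
theorem exists_good (hn : 1 ≤ n) (A : ProjAtlas C) {κ : Type} [Countable κ]
    (extra : κ → Set (Fin 4 → Fin n → ℂ)) (hex : ∀ i, dimH (extra i) ≤ ((8 * n - 1 : ℕ) : ℝ≥0∞)) :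
    ∃ M, GoodM A M ∧ ∀ i, M ∉ extra i := by
  classical
  have hcnt : Countable A.ι := A.cnt
  set q : ℕ → W := TopologicalSpace.denseSeq W with hq
  set bad : (A.ι ⊕ (A.ι × ℕ)) ⊕ ((A.ι × ℕ) ⊕ κ) → Set (Fin 4 → Fin n → ℂ) := fun t =>
    match t with
    | Sum.inl (Sum.inl i) => {M | ∃ u ∈ A.D i, ∀ r : Fin 4, (r : ℕ) < 3 → ∑ b, M r b * A.F i u b = 0}
    | Sum.inl (Sum.inr (i, k)) => {M | q k ∈ A.D i ∧ lin M 0 (A.F i (q k)) = 0}
    | Sum.inr (Sum.inl (i, k)) => {M | q k ∈ A.D i ∧ ¬ InjOnSpan 3 M (TT A i (q k))}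
    | Sum.inr (Sum.inr e) => extra e with hbad
  obtain ⟨M, hM⟩ := exists_generic hn bad (by
    rintro ((i | ⟨i, k⟩) | (⟨i, k⟩ | e))
    · exact bad_nz A i
    · by_cases h : q k ∈ A.D i
      · refine (dimH_mono ?_).trans (bad_vec (v := A.F i (q k)) fun h0 => A.zero (h0 ▸ A.mem i _ h))
        exact fun M hM => hM.2
      · have : bad (Sum.inl (Sum.inr (i, k))) = ∅ := by
          ext M
          simp only [hbad, mem_ofPred_eq, mem_empty_iff_false, iff_false]
          exact fun hM => h hM.1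
        rw [this, dimH_empty]
        exact zero_le
    · by_cases h : q k ∈ A.D i
      · refine (dimH_mono ?_).trans (bad_span (k := 3) (by norm_num) (by norm_num) (TT_indep A i h))
        exact fun M hM => hM.2
      · have : bad (Sum.inr (Sum.inl (i, k))) = ∅ := by
          ext M
          simp only [hbad, mem_ofPred_eq, mem_empty_iff_false, iff_false]
          exact fun hM => h hM.1
        rw [this, dimH_empty]
        exact zero_le
    · exact hex e)
  refine ⟨M, ⟨?_, ?_⟩, fun e => hM (Sum.inr (Sum.inr e))⟩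
  · intro v hv
    obtain ⟨i, u, hu, s, hs, hvs⟩ := A.cover v hv
    by_contra hcon
    push Not at hcon
    refine hM (Sum.inl (Sum.inl i)) ⟨u, hu, fun r hr => ?_⟩
    have h1 := hcon r hr
    rw [hvs, map_smul, smul_eq_mul] at h1
    rw [← lin_apply]
    exact (mul_eq_zero.1 h1).resolve_left hs
  · intro i U hU hUD hne
    obtain ⟨_, hx, k, rfl⟩ := (TopologicalSpace.denseRange_denseSeq W).inter_open_nonempty U hU hne
    refine ⟨_, hx, fun h0 => hM (Sum.inl (Sum.inr (i, k))) ⟨hUD hx, h0⟩, ?_⟩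
    by_contra hcon
    exact hM (Sum.inr (Sum.inl (i, k))) ⟨hUD hx, hcon⟩

end Vale.Agent.P300.H334
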