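import Vale.Agent.P300.H334.Chow3

/-!
# P300 [CHOW], projective end, part 4 (helper334): Chow's theorem from its affine part
-/

open Filter Set MeasureTheory
open scoped Topology ContDiff ENNReal

set_option autoImplicit false

namespace Vale.Agent.P300.H334

open Vale.Agent.P300.H86 Vale.Agent.P300.H918 MvPolynomial

variable {n : ℕ} {C : Set (Fin n → ℂ)} {A : ProjAtlas C} {M : Fin 4 → Fin n → ℂ}

/-- the vector of `(1, pr, ξ)` -/
theorem vec_eq {v : Fin n → ℂ} (hv : lin M 0 v = 1) :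
    (![1, prM M v 0, prM M v 1, lin M 3 v] : Fin 4 → ℂ) = linM M v := by
  ext r
  fin_cases r
  · exact hv.symm
  · rfl
  · rfl
  · rfl

theorem lin_ext {v w : Fin n → ℂ} (h0 : lin M 0 v = lin M 0 w) (hp : prM M v = prM M w)
    (h3 : lin M 3 v = lin M 3 w) (r : Fin 4) : lin M r v = lin M r w := by
  fin_cases r
  · exact h0
  · exact congrFun hp 0
  · exact congrFun hp 1
  · exact h3

/-- `G ∘ M` vanishes on the cone. -/
theorem vanish_cone (h : GoodM A M) {N : ℕ} {G : MvPolynomial (Fin 4) ℂ} (hG : G.IsHomogeneous N)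
    (hchar : (affOf A M h).IsChar (lin M 3) N G) (hV : (affOf A M h).VProp) {c : Fin n → ℂ} (hc : c ∈ C) :
    eval (linM M c) G = 0 := by
  -- the open part
  have h1 : ∀ c ∈ C, lin M 0 c ≠ 0 → eval (linM M c) G = 0 := by
    intro c hc h0
    have hz : (lin M 0 c)⁻¹ • c ∈ ZZ C M := by
      refine ⟨A.smul c hc _ (inv_ne_zero h0), ?_⟩
      rw [map_smul, smul_eq_mul, inv_mul_cancel₀ h0]
    have h2 := hV (lin M 3) N G hchar _ hz
    have h3 : (![1, prM M ((lin M 0 c)⁻¹ • c) 0, prM M ((lin M 0 c)⁻¹ • c) 1, lin M 3 ((lin M 0 c)⁻¹ • c)] :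
        Fin 4 → ℂ) = linM M ((lin M 0 c)⁻¹ • c) := vec_eq hz.2
    have h4 : eval (linM M ((lin M 0 c)⁻¹ • c)) G = 0 := by
      rw [← h3]
      exact h2
    rw [map_smul, hom_eval hG] at h4
    exact (mul_eq_zero.1 h4).resolve_left (pow_ne_zero _ (inv_ne_zero h0))
  obtain ⟨i, u, hu, s, hs, rfl⟩ := A.cover c hc
  rw [map_smul, hom_eval hG]
  by_contra hne
  have h2 : eval (linM M (A.F i u)) G ≠ 0 := right_ne_zero_of_mul hne
  have h3 : ContinuousOn (fun x => eval (linM M (A.F i x)) G) (A.D i) := by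
    have h4 : Continuous fun y : Fin n → ℂ => eval (linM M y) G :=
      (MvPolynomial.continuous_eval G).comp (linM M).continuous
    exact h4.comp_continuousOn (A.diff i).continuousOn
  obtain ⟨x, hx, h0, -⟩ := h.dense i (A.D i ∩ (fun x => eval (linM M (A.F i x)) G) ⁻¹' {0}ᶜ)
    (h3.isOpen_inter_preimage (A.openD i) isOpen_compl_singleton) inter_subset_left ⟨u, hu, h2⟩
  exact hx.2 (h1 _ (A.mem i x hx.1) h0)

theorem subst_mem_vanish (h : GoodM A M) {N : ℕ} {G : MvPolynomial (Fin 4) ℂ} (hG : G.IsHomogeneous N)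
    (hchar : (affOf A M h).IsChar (lin M 3) N G) (hV : (affOf A M h).VProp) : subst M G ∈ vanish C :=
  ⟨⟨N, subst_hom M hG⟩, fun v hv => by rw [eval_subst]; exact vanish_cone h hG hchar hV hv⟩

theorem sep_of {x0 : Fin n → ℂ} (hM : ∀ i : A.ι, M ∉ {M : Fin 4 → Fin n → ℂ |
      ∃ q ∈ {q : ℂ × W | q.2 ∈ A.D i ∧ q.1 • A.F i q.2 - x0 ≠ 0},
      ∀ r : Fin 4, (r : ℕ) < 4 → ∑ b, M r b * (q.1 • A.F i q.2 - x0) b = 0})
    {c : Fin n → ℂ} (hc : c ∈ C) (h : ∀ r, lin M r c = lin M r x0) : c = x0 := by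
  obtain ⟨i, u, hu, s, -, rfl⟩ := A.cover c hc
  by_contra hne
  refine hM i ⟨(s, u), ⟨hu, sub_ne_zero.2 hne⟩, fun r _ => ?_⟩
  rw [← lin_apply, map_sub, h r, sub_self]

/-- **[CHOW]**: the first part. -/
theorem chow_one (hP : ∀ {n : ℕ} (S : Aff n), S.PolyProp) (hV : ∀ {n : ℕ} (S : Aff n), S.VProp)
    (hN : ∀ {n : ℕ} (S : Aff n), S.NProp) (A : ProjAtlas C) {v : Fin n → ℂ} (hv0 : v ≠ 0)
    (hv : ∀ P ∈ vanish C, eval v P = 0) : v ∈ C := by
  by_contra hvC
  have hn : 1 ≤ n := by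
    obtain ⟨b, -⟩ : ∃ b, v b ≠ 0 := by
      by_contra hcon
      push Not at hcon
      exact hv0 (funext hcon)
    have := b.2
    omega
  have hcnt : Countable A.ι := A.cnt
  obtain ⟨M, hM, hex⟩ := exists_good hn A (κ := Option A.ι) (fun t => match t with
    | none => {M | lin M 0 v = 0}
    | some i => {M : Fin 4 → Fin n → ℂ |
      ∃ q ∈ {q : ℂ × W | q.2 ∈ A.D i ∧ q.1 • A.F i q.2 - v ≠ 0},
      ∀ r : Fin 4, (r : ℕ) < 4 → ∑ b, M r b * (q.1 • A.F i q.2 - v) b = 0}) (by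
    rintro (_ | i)
    · exact bad_vec hv0
    · exact bad_sep A i v)
  have ha : lin M 0 v ≠ 0 := hex none
  obtain ⟨N, G, hG, hchar⟩ := hP (affOf A M hM) (lin M 3)
  have h1 := hv _ (subst_mem_vanish hM hG hchar (hV _))
  rw [eval_subst] at h1
  set v' := (lin M 0 v)⁻¹ • v with hv'
  have hv'1 : lin M 0 v' = 1 := by rw [hv', map_smul, smul_eq_mul, inv_mul_cancel₀ ha]
  have h2 : eval (linM M v') G = 0 := by
    rw [hv', map_smul, hom_eval hG, h1, mul_zero]
  refine hN (affOf A M hM) (lin M 3) N G hchar (prM M v') (lin M 3 v') ?_ ?_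
  · intro z hz hpz hξ
    have hz' : z ∈ ZZ C M := hz
    have h3 : ∀ r, lin M r z = lin M r v' := lin_ext (hz'.2.trans hv'1.symm) hpz hξ
    have h4 : lin M 0 v • z = v := by
      refine sep_of (A := A) (M := M) (x0 := v) (fun i => hex (some i)) (A.smul z hz'.1 _ ha) fun r => ?_
      rw [map_smul, h3 r, hv', map_smul, smul_smul, mul_inv_cancel₀ ha, one_smul]
    exact hvC (h4 ▸ A.smul z hz'.1 _ ha)
  · rw [vec_eq hv'1]
    exact h2

/-- **[CHOW]**: the Jacobian criterion. -/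
theorem chow_two (hP : ∀ {n : ℕ} (S : Aff n), S.PolyProp) (hV : ∀ {n : ℕ} (S : Aff n), S.VProp)
    (hJ : ∀ {n : ℕ} (S : Aff n), S.JProp) (A : ProjAtlas C) (i : A.ι) {u : W} (hu : u ∈ A.D i)
    {κ : Fin n → ℂ} (hκ : ∀ P ∈ vanish C, ∑ b, κ b * eval (A.F i u) (pderiv b P) = 0) :
    κ ∈ Submodule.span ℂ (Set.range (TT A i u)) := by
  by_contra hspan
  set x0 := A.F i u with hx0
  have hx0C : x0 ∈ C := A.mem i u hu
  have hx00 : x0 ≠ 0 := fun h => A.zero (h ▸ hx0C)
  have hn : 1 ≤ n := by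
    obtain ⟨b, -⟩ : ∃ b, x0 b ≠ 0 := by
      by_contra hcon
      push Not at hcon
      exact hx00 (funext hcon)
    have := b.2
    omega
  have hT : LinearIndependent ℂ (TT A i u) := TT_indep A i hu
  have hT4 : LinearIndependent ℂ (Fin.cons κ (TT A i u) : Fin 4 → (Fin n → ℂ)) :=
    linearIndependent_finCons.2 ⟨hT, hspan⟩
  have hcnt : Countable A.ι := A.cnt
  obtain ⟨M, hM, hex⟩ := exists_good hn A (κ := Fin 3 ⊕ A.ι) (fun t => match t with
    | Sum.inl 0 => {M | lin M 0 x0 = 0}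
    | Sum.inl 1 => {M | ¬ InjOnSpan 3 M (TT A i u)}
    | Sum.inl 2 => {M | ¬ InjOnSpan 4 M (Fin.cons κ (TT A i u) : Fin 4 → (Fin n → ℂ))}
    | Sum.inr i => {M : Fin 4 → Fin n → ℂ |
      ∃ q ∈ {q : ℂ × W | q.2 ∈ A.D i ∧ q.1 • A.F i q.2 - x0 ≠ 0},
      ∀ r : Fin 4, (r : ℕ) < 4 → ∑ b, M r b * (q.1 • A.F i q.2 - x0) b = 0}) (by
    rintro (j | i)
    · fin_cases j
      · exact bad_vec hx00
      · exact bad_span (k := 3) (by norm_num) (by norm_num) hT
      · exact bad_span (k := 4) (by norm_num) (by norm_num) hT4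
    · exact bad_sep A i x0)
  have ha : lin M 0 x0 ≠ 0 := hex (Sum.inl 0)
  have h3 : InjOnSpan 3 M (TT A i u) := not_not.1 (hex (Sum.inl 1))
  have h4 : InjOnSpan 4 M (Fin.cons κ (TT A i u) : Fin 4 → (Fin n → ℂ)) := not_not.1 (hex (Sum.inl 2))
  obtain ⟨N, G, hG, hchar⟩ := hP (affOf A M hM) (lin M 3)
  have hPv := subst_mem_vanish hM hG hchar (hV _)
  -- the functional
  set L : (Fin 4 → ℂ) →L[ℂ] ℂ := dP G (linM M x0) with hL
  have hLκ : L (linM M κ) = 0 := by
    have h5 := hκ _ hPv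
    rw [pderiv_subst] at h5
    rw [hL, dP_apply, ← h5]
    exact Finset.sum_congr rfl fun r _ => mul_comm _ _
  have hLF : ∀ w : W, L (linM M (fderiv ℂ (A.F i) u w)) = 0 := by
    intro w
    have h5 : HasFDerivAt (A.F i) (fderiv ℂ (A.F i) u) u :=
      ((A.diff i u hu).differentiableAt ((A.openD i).mem_nhds hu)).hasFDerivAt
    have h6 := ((hasFDerivAt_eval G (linM M x0)).comp x0 (linM M).hasFDerivAt).comp u h5
    have h7 : (((fun y => eval y G) ∘ (linM M)) ∘ (A.F i)) =ᶠ[𝓝 u] fun _ => 0 := by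
      filter_upwards [(A.openD i).mem_nhds hu] with x hx
      exact vanish_cone hM hG hchar (hV _) (A.mem i x hx)
    have h8 := h6.congr_of_eventuallyEq h7.symm
    have h9 := h8.unique (hasFDerivAt_const (0 : ℂ) u)
    exact congrArg (fun L => L w) h9
  have hL0 : L (linM M x0) = 0 := by
    have h5 : eval (linM M x0) (∑ r : Fin 4, X r * pderiv r G) = eval (linM M x0) (N • G) := by
      rw [hG.sum_X_mul_pderiv]
    rw [map_sum, map_nsmul, vanish_cone hM hG hchar (hV _) hx0C, smul_zero] at h5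
    rw [hL, dP_apply, ← h5]
    refine Finset.sum_congr rfl fun r _ => ?_
    rw [map_mul, eval_X, mul_comm]
  -- the functional vanishes
  set T4 : Fin 4 → (Fin 4 → ℂ) := fun j => linM M ((Fin.cons κ (TT A i u) : Fin 4 → (Fin n → ℂ)) j) with hT4'
  have hind : LinearIndependent ℂ T4 := by
    rw [Fintype.linearIndependent_iff]
    intro c hc
    have h5 : c = 0 := by
      refine h4 c fun r _ => ?_
      have h6 : linM M (∑ j, c j • (Fin.cons κ (TT A i u) : Fin 4 → (Fin n → ℂ)) j) = 0 := by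
        rw [map_sum, ← hc]
        exact Finset.sum_congr rfl fun j _ => map_smul _ _ _
      exact congrFun h6 r
    intro j
    rw [h5]
    rfl
  have hLT : ∀ j, L (T4 j) = 0 := by
    intro j
    fin_cases j
    · exact hLκ
    · exact hL0
    · exact hLF _
    · exact hLF _
  have hspan4 : Submodule.span ℂ (Set.range T4) = ⊤ :=
    hind.span_eq_top_of_card_eq_finrank' (by simp)
  have hLz : ∀ y, L y = 0 := by
    intro y
    have hy : y ∈ Submodule.span ℂ (Set.range T4) := by rw [hspan4]; exact Submodule.mem_top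
    induction hy using Submodule.span_induction with
    | mem x hx =>
      obtain ⟨j, rfl⟩ := hx
      exact hLT j
    | zero => exact map_zero L
    | add x y _ _ hx hy => rw [map_add, hx, hy, add_zero]
    | smul a x _ hx => rw [map_smul, hx, smul_zero]
  have hd3 : eval (linM M x0) (pderiv 3 G) = 0 := by
    have h5 := hLz (Pi.single 3 1)
    rw [hL, dP_apply, Finset.sum_eq_single 3] at h5
    · simpa using h5
    · intro b _ hb
      rw [Pi.single_apply, if_neg hb, mul_zero]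
    · intro h
      exact absurd (Finset.mem_univ _) h
  -- but it does not
  have hDD : u ∈ DD A M i := ⟨hu, ha⟩
  have hff : lin M 0 (ff A M i u) = 1 := (ff_mem hDD).2
  refine hJ (affOf A M hM) (lin M 3) N G hchar i u hDD (jac_ne_zero hu ha h3) ?_ ?_
  · intro z hz hpz hξ
    have hz' : z ∈ ZZ C M := hz
    have h5 : ∀ r, lin M r z = lin M r (ff A M i u) := lin_ext (hz'.2.trans hff.symm) hpz hξ
    have h6 : lin M 0 x0 • z = x0 := by
      refine sep_of (A := A) (M := M) (x0 := x0) (fun i => hex (Sum.inr i)) (A.smul z hz'.1 _ ha) fun r => ?_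
      rw [map_smul, h5 r, ff, map_smul, smul_smul, mul_inv_cancel₀ ha, one_smul]
    have h7 : (lin M 0 x0)⁻¹ • x0 = z := by
      calc (lin M 0 x0)⁻¹ • x0 = (lin M 0 x0)⁻¹ • (lin M 0 x0 • z) := by rw [h6]
        _ = z := by rw [smul_smul, inv_mul_cancel₀ ha, one_smul]
    exact h7.symm
  · have h5 : (![1, prM M (ff A M i u) 0, prM M (ff A M i u) 1, lin M 3 (ff A M i u)] : Fin 4 → ℂ) =
        linM M (ff A M i u) := vec_eq hff
    show eval ![1, prM M (ff A M i u) 0, prM M (ff A M i u) 1, lin M 3 (ff A M i u)] (pderiv 3 G) = 0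
    rw [h5, ff, map_smul, hom_eval hG.pderiv]
    rw [← hx0, hd3, mul_zero]

/-- **[CHOW]** from the four properties of the affine parts. -/
theorem chow_of (hP : ∀ {n : ℕ} (S : Aff n), S.PolyProp) (hV : ∀ {n : ℕ} (S : Aff n), S.VProp)
    (hN : ∀ {n : ℕ} (S : Aff n), S.NProp) (hJ : ∀ {n : ℕ} (S : Aff n), S.JProp) : ChowProp := by
  intro n C A
  exact ⟨fun v hv0 hv => chow_one hP hV hN A hv0 hv, fun i u hu κ hκ => chow_two hP hV hJ A i hu hκ⟩

end Vale.Agent.P300.H334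

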