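import Vale.Agent.P268.Hol
import Vale.Agent.P300.H813.Cov

/-!
# P300 / PROJ, [F0]: the local datum on one component, general part (helper334)

`pr : E → ℂⁿ` a local homeomorphism, `κ : B → E` continuous and injective on an open set `B`, `pr ∘ κ` holomorphic with
non-vanishing Jacobian determinant. `loc pr κ B g0` is `g0 / det D(pr ∘ κ)` on `κ B`, zero elsewhere.
-/

open MeasureTheory Filter Topology Set
open scoped ENNReal NNReal

set_option autoImplicit false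

namespace Vale.Agent.P300.H334

/-- The Jacobian determinant of a holomorphic map is holomorphic. -/
theorem differentiableOn_det {n : ℕ} {f : (Fin n → ℂ) → (Fin n → ℂ)} {B : Set (Fin n → ℂ)} (hB : IsOpen B)
    (hf : DifferentiableOn ℂ f B) : DifferentiableOn ℂ (fun x => (fderiv ℂ f x).det) B := by
  have h1 : ∀ x, (fderiv ℂ f x).det =
      ∑ σ : Equiv.Perm (Fin n), (Equiv.Perm.sign σ : ℤ) • ∏ i, (fderiv ℂ f x (Pi.single i 1)) (σ i) := by
    intro x
    rw [ContinuousLinearMap.det, ← LinearMap.det_toMatrix', Matrix.det_apply]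
    refine Finset.sum_congr rfl fun σ _ => ?_
    congr 1
  have h2 : (fun x => (fderiv ℂ f x).det) = fun x =>
      ∑ σ : Equiv.Perm (Fin n), (Equiv.Perm.sign σ : ℤ) • ∏ i, (fderiv ℂ f x (Pi.single i 1)) (σ i) := funext h1
  rw [h2]
  clear h1 h2
  have h3 : ∀ i j : Fin n, DifferentiableOn ℂ (fun x => (fderiv ℂ f x (Pi.single i 1)) j) B := fun i j =>
    (differentiableOn_pi.1 (P268.differentiableOn_fderiv_apply hB hf (Pi.single i 1))) j
  refine DifferentiableOn.fun_sum fun σ _ => ?_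
  have h4 : ∀ u : Finset (Fin n),
      DifferentiableOn ℂ (fun x => ∏ i ∈ u, (fderiv ℂ f x (Pi.single i 1)) (σ i)) B := by
    classical
    intro u
    induction u using Finset.induction_on with
    | empty => simp
    | insert a t ha ih =>
      have h6 : (fun x => ∏ i ∈ insert a t, (fderiv ℂ f x (Pi.single i 1)) (σ i)) =
          fun x => (fderiv ℂ f x (Pi.single a 1)) (σ a) * ∏ i ∈ t, (fderiv ℂ f x (Pi.single i 1)) (σ i) := by
        funext x
        rw [Finset.prod_insert ha]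
      rw [h6]
      exact (h3 a (σ a)).mul ih
  have h5 : (fun x => (Equiv.Perm.sign σ : ℤ) • ∏ i, (fderiv ℂ f x (Pi.single i 1)) (σ i)) =
      fun x => ((Equiv.Perm.sign σ : ℤ) : ℂ) * ∏ i, (fderiv ℂ f x (Pi.single i 1)) (σ i) := by
    funext x
    rw [zsmul_eq_mul]
  rw [h5]
  exact (h4 Finset.univ).const_mul _

section general

variable {n : ℕ} {E : Type*} {pr : E → (Fin n → ℂ)} {κ : (Fin n → ℂ) → E} {B : Set (Fin n → ℂ)}
  {g0 : (Fin n → ℂ) → ℂ}

open Classical in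
/-- The local datum. -/
noncomputable def loc (pr : E → (Fin n → ℂ)) (κ : (Fin n → ℂ) → E) (B : Set (Fin n → ℂ)) (g0 : (Fin n → ℂ) → ℂ)
    (e : E) : ℂ :=
  if h : ∃ x ∈ B, κ x = e then g0 h.choose * ((fderiv ℂ (pr ∘ κ) h.choose).det)⁻¹ else 0

theorem loc_apply (hinj : InjOn κ B) {x : Fin n → ℂ} (hx : x ∈ B) :
    loc pr κ B g0 (κ x) = g0 x * ((fderiv ℂ (pr ∘ κ) x).det)⁻¹ := by
  have h : ∃ y ∈ B, κ y = κ x := ⟨x, hx, rfl⟩
  rw [loc, dif_pos h]
  have : h.choose = x := hinj h.choose_spec.1 hx h.choose_spec.2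
  rw [this]

theorem loc_out {e : E} (he : e ∉ κ '' B) : loc pr κ B g0 e = 0 := by
  rw [loc, dif_neg]
  rintro ⟨x, hx, rfl⟩
  exact he ⟨x, hx, rfl⟩

variable [TopologicalSpace E]

omit [TopologicalSpace E] in
/-- Local inverses of `pr ∘ κ`. -/
theorem exists_inv (hB : IsOpen B) (hZ : DifferentiableOn ℂ (pr ∘ κ) B) {x0 : Fin n → ℂ} (hx0 : x0 ∈ B)
    (hdet : (fderiv ℂ (pr ∘ κ) x0).det ≠ 0) :
    ∃ τ : (Fin n → ℂ) → (Fin n → ℂ), τ (pr (κ x0)) = x0 ∧ (∀ᶠ z in 𝓝 (pr (κ x0)), DifferentiableAt ℂ τ z) ∧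
      (∀ᶠ z in 𝓝 (pr (κ x0)), τ z ∈ B) ∧ (∀ᶠ z in 𝓝 (pr (κ x0)), pr (κ (τ z)) = z) ∧
      (∀ᶠ x in 𝓝 x0, τ (pr (κ x)) = x) := by
  have hc : ContDiffAt ℂ 1 (pr ∘ κ) x0 := by
    have := P268.contDiffOn_of_differentiableOn hB hZ 1
    exact (this x0 hx0).contDiffAt (hB.mem_nhds hx0)
  set A := (fderiv ℂ (pr ∘ κ) x0).toContinuousLinearEquivOfDetNeZero hdet with hA
  have hA' : (A : (Fin n → ℂ) →L[ℂ] (Fin n → ℂ)) = fderiv ℂ (pr ∘ κ) x0 :=
    ContinuousLinearMap.coe_toContinuousLinearEquivOfDetNeZero _ hdet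
  have hd : HasFDerivAt (pr ∘ κ) (A : (Fin n → ℂ) →L[ℂ] (Fin n → ℂ)) x0 := by
    rw [hA']
    exact (hc.differentiableAt one_ne_zero).hasFDerivAt
  have hs : HasStrictFDerivAt (pr ∘ κ) (A : (Fin n → ℂ) →L[ℂ] (Fin n → ℂ)) x0 :=
    hc.hasStrictFDerivAt' hd one_ne_zero
  refine ⟨hc.localInverse hd one_ne_zero, ?_, ?_, ?_, ?_, ?_⟩
  · exact hc.localInverse_apply_image hd one_ne_zero
  · have h1 : ContDiffAt ℂ 1 (hc.localInverse hd one_ne_zero) ((pr ∘ κ) x0) := hc.to_localInverse hd one_ne_zero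
    filter_upwards [h1.eventually (by simp)] with z hz
    exact hz.differentiableAt one_ne_zero
  · have h1 : ContinuousAt (hc.localInverse hd one_ne_zero) ((pr ∘ κ) x0) :=
      (hc.to_localInverse hd one_ne_zero).continuousAt
    have h2 : hc.localInverse hd one_ne_zero ((pr ∘ κ) x0) = x0 := hc.localInverse_apply_image hd one_ne_zero
    exact h1 (by rw [h2]; exact hB.mem_nhds hx0)
  · exact hs.eventually_right_inverse
  · exact hs.eventually_left_inverse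

/-- Sections of `pr` through a point of `κ B`. -/
theorem section_eq (hpr : IsLocalHomeomorph pr) (hB : IsOpen B) (hκ : ContinuousOn κ B)
    (hZ : DifferentiableOn ℂ (pr ∘ κ) B) {x0 : Fin n → ℂ} (hx0 : x0 ∈ B)
    (hdet : (fderiv ℂ (pr ∘ κ) x0).det ≠ 0) {s : (Fin n → ℂ) → E} (hs : ContinuousAt s (pr (κ x0)))
    (hs0 : s (pr (κ x0)) = κ x0) (hps : ∀ᶠ z in 𝓝 (pr (κ x0)), pr (s z) = z) :
    ∃ τ : (Fin n → ℂ) → (Fin n → ℂ), τ (pr (κ x0)) = x0 ∧ (∀ᶠ z in 𝓝 (pr (κ x0)), DifferentiableAt ℂ τ z) ∧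
      (∀ᶠ z in 𝓝 (pr (κ x0)), τ z ∈ B) ∧ (∀ᶠ z in 𝓝 (pr (κ x0)), s z = κ (τ z)) := by
  obtain ⟨τ, h1, h2, h3, h4, -⟩ := exists_inv hB hZ hx0 hdet
  refine ⟨τ, h1, h2, h3, ?_⟩
  obtain ⟨e, he, heq⟩ := hpr (κ x0)
  have h5 : ∀ᶠ z in 𝓝 (pr (κ x0)), s z ∈ e.source := hs (by rw [hs0]; exact e.open_source.mem_nhds he)
  have h6 : ContinuousAt (fun z => κ (τ z)) (pr (κ x0)) := by
    have h7 : ContinuousAt τ (pr (κ x0)) := (h2.self_of_nhds).continuousAt
    have h8 : ContinuousAt κ (τ (pr (κ x0))) := by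
      rw [h1]
      exact (hκ x0 hx0).continuousAt (hB.mem_nhds hx0)
    exact ContinuousAt.comp (f := τ) h8 h7
  have h9 : ∀ᶠ z in 𝓝 (pr (κ x0)), κ (τ z) ∈ e.source :=
    h6 (by
      show e.source ∈ 𝓝 (κ (τ (pr (κ x0))))
      rw [h1]
      exact e.open_source.mem_nhds he)
  filter_upwards [h4, h5, h9, hps] with z a1 a2 a3 a4
  refine e.injOn a2 a3 ?_
  rw [← heq, a4, a1]

/-- The image of `κ` is open. -/
theorem isOpen_image (hpr : IsLocalHomeomorph pr) (hB : IsOpen B) (hκ : ContinuousOn κ B)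
    (hZ : DifferentiableOn ℂ (pr ∘ κ) B) (hdet : ∀ x ∈ B, (fderiv ℂ (pr ∘ κ) x).det ≠ 0) : IsOpen (κ '' B) := by
  rw [isOpen_iff_mem_nhds]
  rintro _ ⟨x0, hx0, rfl⟩
  obtain ⟨e, he, heq⟩ := hpr (κ x0)
  have h1 : ContinuousAt e.symm (pr (κ x0)) := by
    rw [heq]
    exact e.symm.continuousAt (e.map_source he)
  have h2 : e.symm (pr (κ x0)) = κ x0 := by rw [heq]; exact e.left_inv he
  obtain ⟨τ, h3, h4, h5, h6⟩ := section_eq hpr hB hκ hZ hx0 (hdet x0 hx0) h1 h2 (by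
    have : e.target ∈ 𝓝 (pr (κ x0)) := by
      rw [heq]
      exact e.open_target.mem_nhds (e.map_source he)
    filter_upwards [this] with z hz
    rw [heq]
    exact e.right_inv hz)
  have h7 : ContinuousAt pr (κ x0) := hpr.continuous.continuousAt
  filter_upwards [h7.eventually h5, h7.eventually h6, e.open_source.mem_nhds he] with y a1 a2 a3
  refine ⟨τ (pr y), a1, ?_⟩
  rw [← a2, heq]
  exact e.left_inv a3

/-- **[F0], holomorphy.** -/
theorem loc_holo (hpr : IsLocalHomeomorph pr) (hB : IsOpen B) (hκ : ContinuousOn κ B) (hinj : InjOn κ B)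
    (hZ : DifferentiableOn ℂ (pr ∘ κ) B) (hdet : ∀ x ∈ B, (fderiv ℂ (pr ∘ κ) x).det ≠ 0)
    (hg0 : DifferentiableOn ℂ g0 B) {W : Set (Fin n → ℂ)} {s : (Fin n → ℂ) → E} (hW : IsOpen W)
    (hs : ContinuousOn s W) (hps : ∀ z ∈ W, pr (s z) = z) (hcl : ∀ z ∈ W, s z ∈ closure (κ '' B) → s z ∈ κ '' B) :
    DifferentiableOn ℂ (fun z => loc pr κ B g0 (s z)) W := by
  intro z0 hz0
  apply DifferentiableAt.differentiableWithinAt
  by_cases h : s z0 ∈ κ '' B
  · obtain ⟨x0, hx0, hx⟩ := h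
    have hz : pr (κ x0) = z0 := by rw [hx, hps z0 hz0]
    obtain ⟨τ, h1, h2, h3, h4⟩ := section_eq hpr hB hκ hZ hx0 (hdet x0 hx0)
      (by rw [hz]; exact (hs z0 hz0).continuousAt (hW.mem_nhds hz0)) (by rw [hz, hx])
      (by rw [hz]; filter_upwards [hW.mem_nhds hz0] with z hz using hps z hz)
    rw [hz] at h1 h2 h3 h4
    have h5 : (fun z => loc pr κ B g0 (s z)) =ᶠ[𝓝 z0]
        fun z => g0 (τ z) * ((fderiv ℂ (pr ∘ κ) (τ z)).det)⁻¹ := by
      filter_upwards [h3, h4] with z a1 a2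
      rw [a2, loc_apply hinj a1]
    refine DifferentiableAt.congr_of_eventuallyEq ?_ h5
    have h6 : DifferentiableAt ℂ τ z0 := h2.self_of_nhds
    have h7 : DifferentiableAt ℂ (fun x => g0 x * ((fderiv ℂ (pr ∘ κ) x).det)⁻¹) (τ z0) := by
      rw [h1]
      refine ((hg0 x0 hx0).differentiableAt (hB.mem_nhds hx0)).mul ?_
      exact (((differentiableOn_det hB hZ) x0 hx0).differentiableAt (hB.mem_nhds hx0)).inv (hdet x0 hx0)
    exact DifferentiableAt.comp (f := τ) z0 h7 h6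
  · have h1 : s z0 ∉ closure (κ '' B) := fun h2 => h (hcl z0 hz0 h2)
    have h2 : ContinuousAt s z0 := (hs z0 hz0).continuousAt (hW.mem_nhds hz0)
    have h3 : (fun z => loc pr κ B g0 (s z)) =ᶠ[𝓝 z0] fun _ => 0 := by
      filter_upwards [h2 (isClosed_closure.isOpen_compl.mem_nhds h1)] with z hz
      exact loc_out fun h4 => hz (subset_closure h4)
    exact (differentiableAt_const _).congr_of_eventuallyEq h3

/-- continuity of the local datum on `κ B` -/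
theorem loc_continuousOn (hpr : IsLocalHomeomorph pr) (hB : IsOpen B) (hκ : ContinuousOn κ B) (hinj : InjOn κ B)
    (hZ : DifferentiableOn ℂ (pr ∘ κ) B) (hdet : ∀ x ∈ B, (fderiv ℂ (pr ∘ κ) x).det ≠ 0)
    (hg0 : ContinuousOn g0 B) : ContinuousOn (loc pr κ B g0) (κ '' B) := by
  rintro _ ⟨x0, hx0, rfl⟩
  apply ContinuousAt.continuousWithinAt
  obtain ⟨e, he, heq⟩ := hpr (κ x0)
  have h1 : ContinuousAt e.symm (pr (κ x0)) := by
    rw [heq]
    exact e.symm.continuousAt (e.map_source he)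
  have h2 : e.symm (pr (κ x0)) = κ x0 := by rw [heq]; exact e.left_inv he
  obtain ⟨τ, h3, h4, h5, h6⟩ := section_eq hpr hB hκ hZ hx0 (hdet x0 hx0) h1 h2 (by
    have : e.target ∈ 𝓝 (pr (κ x0)) := by
      rw [heq]
      exact e.open_target.mem_nhds (e.map_source he)
    filter_upwards [this] with z hz
    rw [heq]
    exact e.right_inv hz)
  have h7 : ContinuousAt pr (κ x0) := hpr.continuous.continuousAt
  have h8 : loc pr κ B g0 =ᶠ[𝓝 (κ x0)]
      fun y => g0 (τ (pr y)) * ((fderiv ℂ (pr ∘ κ) (τ (pr y))).det)⁻¹ := by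
    filter_upwards [h7.eventually h5, h7.eventually h6, e.open_source.mem_nhds he] with y a1 a2 a3
    have : y = κ (τ (pr y)) := by
      rw [← a2, heq]
      exact (e.left_inv a3).symm
    conv_lhs => rw [this]
    rw [loc_apply hinj a1]
  refine ContinuousAt.congr ?_ h8.symm
  have h9 : ContinuousAt (fun x => g0 x * ((fderiv ℂ (pr ∘ κ) x).det)⁻¹) (τ (pr (κ x0))) := by
    rw [h3]
    refine ((hg0 x0 hx0).continuousAt (hB.mem_nhds hx0)).mul ?_
    exact (((differentiableOn_det hB hZ) x0 hx0).differentiableAt (hB.mem_nhds hx0)).continuousAt.inv₀ (hdet x0 hx0)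
  have h10 : ContinuousAt (fun y => τ (pr y)) (κ x0) :=
    ContinuousAt.comp (f := pr) (g := τ) (h4.self_of_nhds).continuousAt h7
  exact ContinuousAt.comp (f := fun y => τ (pr y)) h9 h10

theorem loc_measurable [MeasurableSpace E] [BorelSpace E] (hpr : IsLocalHomeomorph pr) (hB : IsOpen B)
    (hκ : ContinuousOn κ B) (hinj : InjOn κ B) (hZ : DifferentiableOn ℂ (pr ∘ κ) B)
    (hdet : ∀ x ∈ B, (fderiv ℂ (pr ∘ κ) x).det ≠ 0) (hg0 : ContinuousOn g0 B) :
    Measurable (loc pr κ B g0) := by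
  have hO := isOpen_image hpr hB hκ hZ hdet
  have h1 := loc_continuousOn hpr hB hκ hinj hZ hdet hg0
  have h2 : loc pr κ B g0 = (κ '' B).indicator (loc pr κ B g0) := by
    funext e
    by_cases he : e ∈ κ '' B
    · rw [indicator_of_mem he]
    · rw [indicator_of_notMem he, loc_out he]
  rw [h2]
  classical
  have h3 : Measurable ((κ '' B).piecewise (loc pr κ B g0) (fun _ => (0 : ℂ))) :=
    ContinuousOn.measurable_piecewise h1 continuousOn_const hO.measurableSet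
  have h4 : (κ '' B).indicator (loc pr κ B g0) = (κ '' B).piecewise (loc pr κ B g0) (fun _ => (0 : ℂ)) := by
    funext e
    by_cases he : e ∈ κ '' B
    · rw [indicator_of_mem he, piecewise_eq_of_mem _ _ _ he]
    · rw [indicator_of_notMem he, piecewise_eq_of_notMem _ _ _ he]
  rw [h4]
  exact h3

end general

section L2

variable {n : ℕ} {E : Type*} [TopologicalSpace E] [T2Space E] [SecondCountableTopology E] [MeasurableSpace E]
  [BorelSpace E] {pr : E → (Fin n → ℂ)} {V : Set (Fin n → ℂ)} {fib : (Fin n → ℂ) → Finset E} {μ : Measure E}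
  {κ : (Fin n → ℂ) → E} {B : Set (Fin n → ℂ)} {g0 : (Fin n → ℂ) → ℂ}

/-- **[F0], `L²`.** -/
theorem loc_L2 (hV : MeasurableSet V) (hpr : IsLocalHomeomorph pr) (hprV : ∀ x, pr x ∈ V)
    (hfib : ∀ z ∈ V, ∀ x, x ∈ fib z ↔ pr x = z)
    (hμ : ∀ Ψ : E → ℝ≥0∞, Measurable Ψ → ∫⁻ x, Ψ x ∂μ = ∫⁻ z in V, ∑ x ∈ fib z, Ψ x)
    (hB : IsOpen B) (hκ : ContinuousOn κ B) (hinj : InjOn κ B)
    (hZ : DifferentiableOn ℂ (pr ∘ κ) B) (hdet : ∀ x ∈ B, (fderiv ℂ (pr ∘ κ) x).det ≠ 0)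
    (hg0 : ContinuousOn g0 B) {K : Set (Fin n → ℂ)} (hK : IsClosed K) {c : ℝ}
    (hc : ∀ x ∈ B, pr (κ x) ∈ K → ‖g0 x‖ ≤ c) (hvol : volume (B ∩ (pr ∘ κ) ⁻¹' K) < ⊤) :
    ∫⁻ e in pr ⁻¹' K, ENNReal.ofReal (‖loc pr κ B g0 e‖ ^ 2) ∂μ < ⊤ := by
  set D : Set (Fin n → ℂ) := B ∩ (pr ∘ κ) ⁻¹' K with hD
  have hDm : MeasurableSet D := by
    have h1 : D = B \ (B ∩ (pr ∘ κ) ⁻¹' Kᶜ) := by
      ext x
      simp only [hD, mem_inter_iff, mem_preimage, Set.mem_sdiff, mem_compl_iff]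
      tauto
    rw [h1]
    exact hB.measurableSet.diff
      ((hpr.continuous.comp_continuousOn hκ).isOpen_inter_preimage hB hK.isOpen_compl).measurableSet
  have hκD : MeasurableSet (κ '' D) :=
    hDm.image_of_continuousOn_injOn (hκ.mono inter_subset_left) (hinj.mono inter_subset_left)
  have hG : Measurable fun e => ENNReal.ofReal (‖loc pr κ B g0 e‖ ^ 2) :=
    (((loc_measurable hpr hB hκ hinj hZ hdet hg0).norm).pow_const 2).ennreal_ofReal
  have h1 : ∫⁻ e in pr ⁻¹' K, ENNReal.ofReal (‖loc pr κ B g0 e‖ ^ 2) ∂μ =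
      ∫⁻ e in κ '' D, ENNReal.ofReal (‖loc pr κ B g0 e‖ ^ 2) ∂μ := by
    rw [← lintegral_indicator (hK.preimage hpr.continuous).measurableSet, ← lintegral_indicator hκD]
    refine lintegral_congr fun e => ?_
    by_cases he : e ∈ κ '' D
    · obtain ⟨x, hx, rfl⟩ := he
      rw [indicator_of_mem (show κ x ∈ pr ⁻¹' K from hx.2), indicator_of_mem (mem_image_of_mem κ hx)]
    · rw [indicator_of_notMem he]
      by_cases he' : e ∈ pr ⁻¹' K
      · rw [indicator_of_mem he']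
        have : e ∉ κ '' B := by
          rintro ⟨x, hx, rfl⟩
          exact he ⟨x, ⟨hx, he'⟩, rfl⟩
        rw [loc_out this]
        simp
      · rw [indicator_of_notMem he']
  rw [h1, H813.cov hV hpr hprV hfib hμ hB hκ hinj hZ hG hDm inter_subset_left]
  have h2 : ∫⁻ x in D, ENNReal.ofReal (‖(fderiv ℂ (pr ∘ κ) x).det‖ ^ 2) *
      ENNReal.ofReal (‖loc pr κ B g0 (κ x)‖ ^ 2) ≤ ∫⁻ _ in D, ENNReal.ofReal (c ^ 2) := by
    refine setLIntegral_mono' hDm fun x hx => ?_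
    rw [loc_apply hinj hx.1, ← ENNReal.ofReal_mul (by positivity)]
    refine ENNReal.ofReal_le_ofReal ?_
    rw [norm_mul, norm_inv, mul_pow, inv_pow]
    have h3 : ‖(fderiv ℂ (pr ∘ κ) x).det‖ ^ 2 ≠ 0 := pow_ne_zero 2 (norm_ne_zero_iff.2 (hdet x hx.1))
    have h4 : ‖(fderiv ℂ (pr ∘ κ) x).det‖ ^ 2 * (‖g0 x‖ ^ 2 * (‖(fderiv ℂ (pr ∘ κ) x).det‖ ^ 2)⁻¹) = ‖g0 x‖ ^ 2 := by
      rw [mul_left_comm, mul_inv_cancel₀ h3, mul_one]
    rw [h4]
    exact pow_le_pow_left₀ (norm_nonneg _) (hc x hx.1 hx.2) 2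
  refine h2.trans_lt ?_
  rw [setLIntegral_const]
  exact ENNReal.mul_lt_top ENNReal.ofReal_lt_top hvol

end L2

end Vale.Agent.P300.H334
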